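import Vale.Agent.Lib.P067.D2.Chain

/-!
# P067 D2: partial bases of a free module over a Euclidean ring (Maazen)

`PB R s`: the finite set `s` is a partial basis (it has dual functionals).
`Lk R s`: the link of `s` in the complex of partial bases.
`fills_Lk`: the link of a partial basis with `k` elements of a free module of rank `n` over a
Euclidean ring has vanishing reduced homology on faces with `j ≤ n - k - 1` elements.
-/

namespace Vale.P067.D2

open scoped Classical
open Vale.P067

variable (R : Type*) [CommRing R] {M : Type*} [AddCommGroup M] [Module R M]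

/-- partial basis -/
def PB (s : Finset M) : Prop :=
  ∃ f : M → (M →ₗ[R] R), ∀ v ∈ s, ∀ w ∈ s, f v w = if v = w then 1 else 0

/-- link of `s` in the complex of partial bases -/
def Lk (s : Finset M) : Set (Finset M) := {t | Disjoint t s ∧ PB R (s ∪ t)}

variable {R}

theorem PB.mono {s t : Finset M} (h : s ⊆ t) (ht : PB R t) : PB R s := by
  obtain ⟨f, hf⟩ := ht
  exact ⟨f, fun v hv w hw => hf v (h hv) w (h hw)⟩

theorem PB_empty : PB R (∅ : Finset M) := ⟨fun _ => 0, by simp⟩

theorem Lk_erase (s : Finset M) : ∀ σ ∈ Lk R s, ∀ v ∈ σ, σ.erase v ∈ Lk R s := by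
  rintro σ ⟨h1, h2⟩ v _
  exact ⟨Finset.disjoint_of_subset_left (Finset.erase_subset _ _) h1,
    PB.mono (Finset.union_subset_union_right (Finset.erase_subset _ _)) h2⟩

/-- adding an element `e` with a functional `L` vanishing on `s` -/
theorem PB_insert_of [Nontrivial R] {s : Finset M} (hs : PB R s) {e : M} {L : M →ₗ[R] R}
    (hL : L e = 1) (hL0 : ∀ v ∈ s, L v = 0) : e ∉ s ∧ PB R (insert e s) := by
  have he : e ∉ s := fun h => by
    have := hL0 e h
    rw [hL] at this
    exact one_ne_zero this
  refine ⟨he, ?_⟩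
  obtain ⟨f, hf⟩ := hs
  refine ⟨fun v => if v = e then L else f v - f v e • L, ?_⟩
  intro v hv w hw
  beta_reduce
  rw [Finset.mem_insert] at hv hw
  by_cases hve : v = e
  · subst hve
    rw [if_pos rfl]
    by_cases hwe : v = w
    · subst hwe
      rw [hL, if_pos rfl]
    · rw [if_neg hwe]
      rcases hw with hw | hw
      · exact absurd hw.symm hwe
      · exact hL0 w hw
  · rw [if_neg hve]
    have hvs : v ∈ s := hv.resolve_left hve
    rcases hw with hw | hw
    · subst hw
      rw [if_neg hve]
      simp [hL]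
    · simp [hL0 w hw, hf v hvs w hw]

/-- shearing: `v ↦ v - q v • w` -/
theorem PB_shear [Nontrivial R] {P : Finset M} {w : M} (hw : w ∈ P) (q : M → R) (hq : q w = 0)
    (hP : PB R P) :
    Set.InjOn (fun v => v - q v • w) (P : Set M) ∧ PB R (P.image fun v => v - q v • w) := by
  obtain ⟨f, hf⟩ := hP
  set φ : M → M := fun v => v - q v • w with hφ
  set g : M → (M →ₗ[R] R) := fun v => if v = w then f w + ∑ u ∈ P, q u • f u else f v with hg
  have hfφ : ∀ u ∈ P, ∀ v ∈ P, f u (φ v) = (if u = v then 1 else 0) - q v * (if u = w then 1 else 0) := by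
    intro u hu v hv
    simp only [hφ, map_sub, map_smul, smul_eq_mul]
    rw [hf u hu v hv, hf u hu w hw]
  have key : ∀ u ∈ P, ∀ v ∈ P, g u (φ v) = if u = v then 1 else 0 := by
    intro u hu v hv
    by_cases huw : u = w
    · subst huw
      simp only [hg, if_true, LinearMap.add_apply, LinearMap.sum_apply, LinearMap.smul_apply,
        smul_eq_mul]
      rw [hfφ u hu v hv]
      have h1 : ∑ x ∈ P, q x * f x (φ v) = q v := by
        have h2 : ∀ x ∈ P, q x * f x (φ v) = (if x = v then q x else 0) := by
          intro x hx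
          rw [hfφ x hx v hv]
          by_cases hxu : x = u
          · subst hxu
            by_cases hxv : x = v
            · subst hxv
              simp [hq]
            · simp [hq, hxv]
          · simp [hxu]
        rw [Finset.sum_congr rfl h2, Finset.sum_ite_eq' P v q, if_pos hv]
      rw [h1, if_pos rfl]
      ring
    · simp only [hg, if_neg huw]
      rw [hfφ u hu v hv, if_neg huw, mul_zero, sub_zero]
  have hinj : Set.InjOn φ (P : Set M) := by
    intro u hu v hv huv
    by_contra hne
    have h1 := key u hu v hv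
    rw [← huv, key u hu u hu, if_pos rfl, if_neg hne] at h1
    exact one_ne_zero h1
  refine ⟨hinj, fun x => if h : ∃ u ∈ P, φ u = x then g h.choose else 0, ?_⟩
  intro x hx y hy
  rw [Finset.mem_image] at hx hy
  obtain ⟨v, hv, rfl⟩ := hy
  have hx' : ∃ u ∈ P, φ u = x := hx
  simp only [dif_pos hx']
  have h1 := hx'.choose_spec
  rw [key _ h1.1 v hv]
  by_cases h2 : hx'.choose = v
  · rw [if_pos h2, if_pos]
    rw [← h1.2, h2]
  · rw [if_neg h2, if_neg]
    intro h3
    exact h2 (hinj h1.1 hv (h1.2.trans h3))

/-- extension of a partial basis which is not a basis -/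
theorem exists_ext [IsDomain R] [IsPrincipalIdealRing R] [Module.Free R M] [Module.Finite R M]
    {s : Finset M} (hs : PB R s) (h : s.card < Module.finrank R M) :
    ∃ (e : M) (L : M →ₗ[R] R), L e = 1 ∧ ∀ v ∈ s, L v = 0 := by
  obtain ⟨f, hf⟩ := hs
  -- the projection to the complement
  let pr : M →ₗ[R] M := LinearMap.id - ∑ w ∈ s, (f w).smulRight w
  let F : M →ₗ[R] (s → R) := LinearMap.pi fun w => f w
  have hprF : ∀ x, F (pr x) = 0 := by
    intro x
    funext w
    simp only [F, LinearMap.pi_apply, Pi.zero_apply, pr, LinearMap.sub_apply, LinearMap.id_apply,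
      LinearMap.sum_apply, LinearMap.smulRight_apply, map_sub, map_sum, map_smul, smul_eq_mul]
    have : ∑ u ∈ s, f u x * f w u = f w x := by
      have h2 : ∀ u ∈ s, f u x * f w u = if u = (w : M) then f u x else 0 := by
        intro u hu
        rw [hf w w.2 u hu]
        by_cases hwu : (w : M) = u
        · simp [hwu]
        · rw [if_neg hwu, if_neg (fun h => hwu h.symm), mul_zero]
      rw [Finset.sum_congr rfl h2, Finset.sum_ite_eq' s (w : M) (fun u => f u x), if_pos w.2]
    rw [this, sub_self]
  have hprs : ∀ v ∈ s, pr v = 0 := by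
    intro v hv
    simp only [pr, LinearMap.sub_apply, LinearMap.id_apply, LinearMap.sum_apply,
      LinearMap.smulRight_apply]
    have : ∑ u ∈ s, f u v • u = v := by
      have h2 : ∀ u ∈ s, f u v • u = if u = v then u else 0 := by
        intro u hu
        rw [hf u hu v hv]
        by_cases huv : u = v
        · simp [huv]
        · simp [huv]
      rw [Finset.sum_congr rfl h2, Finset.sum_ite_eq' s v (fun u => u), if_pos hv]
    rw [this, sub_self]
  have hprK : ∀ x, F x = 0 → pr x = x := by
    intro x hx
    simp only [pr, LinearMap.sub_apply, LinearMap.id_apply, LinearMap.sum_apply,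
      LinearMap.smulRight_apply]
    rw [Finset.sum_eq_zero, sub_zero]
    intro u hu
    have : F x ⟨u, hu⟩ = 0 := by rw [hx]; rfl
    simp only [F, LinearMap.pi_apply] at this
    rw [this, zero_smul]
  have hK : LinearMap.ker F ≠ ⊥ := by
    intro hbot
    have hinj : Function.Injective F := LinearMap.ker_eq_bot.1 hbot
    have := LinearMap.finrank_le_finrank_of_injective hinj
    rw [Module.finrank_fintype_fun_eq_card, Fintype.card_coe] at this
    omega
  let K := LinearMap.ker F
  have : Module.Free R K := Module.Free.of_basis (Submodule.basisOfPid (Module.Free.chooseBasis R M) K).2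
  have : Nontrivial K := Submodule.nontrivial_iff_ne_bot.2 hK
  let b := Module.Free.chooseBasis R K
  have : Nonempty (Module.Free.ChooseBasisIndex R K) := b.index_nonempty
  let i := Classical.arbitrary (Module.Free.ChooseBasisIndex R K)
  let pK : M →ₗ[R] K := LinearMap.codRestrict K pr (fun x => by
    rw [LinearMap.mem_ker]; exact hprF x)
  refine ⟨(b i : M), (b.coord i) ∘ₗ pK, ?_, ?_⟩
  · have h1 : pK (b i : M) = b i := by
      apply Subtype.ext
      change pr (b i : M) = (b i : M)
      exact hprK _ (LinearMap.mem_ker.1 (b i).2)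
    rw [LinearMap.comp_apply, h1, Module.Basis.coord_apply, Module.Basis.repr_self,
      Finsupp.single_eq_same]
  · intro v hv
    have h1 : pK v = 0 := by
      apply Subtype.ext
      exact hprs v hv
    rw [LinearMap.comp_apply, h1, map_zero]

/-- coning off a cycle all of whose vertices are killed by `L` -/
theorem fill_cone [Nontrivial R] {s : Finset M} {j : ℕ} {z : Ch M} (hz : On (Lk R s) j z)
    (hbd : bd z = 0) {e : M} {L : M →ₗ[R] R} (hL : L e = 1) (hL0 : ∀ v ∈ s, L v = 0)
    (hzL : ∀ τ ∈ z.support, ∀ v ∈ τ, L v = 0) :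
    ∃ y : Ch M, On (Lk R s) (j + 1) y ∧ bd y = z := by
  refine ⟨cone e z, ?_, ?_⟩
  · intro τ hτ
    obtain ⟨σ, hσ, he, rfl⟩ := mem_support_cone hτ
    obtain ⟨⟨h1, h2⟩, h3⟩ := hz σ hσ
    have h4 : ∀ v ∈ s ∪ σ, L v = 0 := by
      intro v hv
      rcases Finset.mem_union.1 hv with hv | hv
      · exact hL0 v hv
      · exact hzL σ hσ v hv
    obtain ⟨h5, h6⟩ := PB_insert_of h2 hL h4
    refine ⟨⟨?_, ?_⟩, ?_⟩
    · rw [Finset.disjoint_insert_left]
      exact ⟨fun h => h5 (Finset.mem_union_left _ h), h1⟩
    · rw [Finset.union_insert]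
      exact h6
    · rw [Finset.card_insert_of_notMem he, h3]
  · have := bd_cone e z
    rw [hbd, map_zero, add_zero] at this
    exact this

/-- removing one vertex `w` with `N (L w) = r ≥ 1` from a cycle -/
theorem remove_vertex [Nontrivial R] (N : R → ℕ)
    (hN : ∀ a b : R, b ≠ 0 → ∃ q : R, N (a - q * b) < N b)
    {s : Finset M} {j : ℕ} {z : Ch M} (hz : On (Lk R s) j z) (hbd : bd z = 0)
    (L : M →ₗ[R] R) {w : M} (hw : L w ≠ 0)
    (IH : w ∉ s → PB R (insert w s) → 1 ≤ j → Fills (Lk R (insert w s)) (j - 1)) :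
    ∃ c : Ch M, On (Lk R s) (j + 1) c ∧
      ∀ τ ∈ (z + bd c).support, ∀ v ∈ τ,
        (v ≠ w ∧ ∃ σ ∈ z.support, v ∈ σ) ∨ N (L v) < N (L w) := by
  by_cases hne : ∃ τ ∈ z.support, w ∈ τ
  swap
  · refine ⟨0, by intro σ hσ; simp at hσ, ?_⟩
    intro τ hτ v hv
    rw [map_zero, add_zero] at hτ
    left
    refine ⟨?_, τ, hτ, hv⟩
    rintro rfl
    exact hne ⟨τ, hτ, hv⟩
  obtain ⟨τ0, hτ0, hwτ0⟩ := hne
  obtain ⟨⟨hd0, hPB0⟩, hc0⟩ := hz τ0 hτ0
  have hws : w ∉ s := fun h => Finset.disjoint_left.1 hd0 hwτ0 h
  have hPBw : PB R (insert w s) := PB.mono (by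
    intro x hx
    rcases Finset.mem_insert.1 hx with rfl | hx
    · exact Finset.mem_union_right _ hwτ0
    · exact Finset.mem_union_left _ hx) hPB0
  have hj : 1 ≤ j := by
    rw [← hc0]
    exact Finset.card_pos.2 ⟨w, hwτ0⟩
  -- the link
  set y : Ch M := lnk w z with hy
  have hybd : bd y = 0 := by rw [hy, ← lnk_bd, hbd, map_zero]
  have hyOn : On (Lk R (insert w s)) (j - 1) y := by
    intro σ hσ
    obtain ⟨τ, hτ, hwτ, rfl⟩ := mem_support_lnk hσ
    obtain ⟨⟨h1, h2⟩, h3⟩ := hz τ hτ
    refine ⟨⟨?_, ?_⟩, ?_⟩
    · rw [Finset.disjoint_insert_right]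
      exact ⟨Finset.notMem_erase w τ, Finset.disjoint_of_subset_left (Finset.erase_subset _ _) h1⟩
    · have : insert w s ∪ τ.erase w = s ∪ τ := by
        ext x
        simp only [Finset.mem_union, Finset.mem_insert, Finset.mem_erase]
        constructor
        · rintro ((rfl | h) | h)
          · exact Or.inr hwτ
          · exact Or.inl h
          · exact Or.inr h.2
        · rintro (h | h)
          · exact Or.inl (Or.inr h)
          · by_cases hx : x = w
            · exact Or.inl (Or.inl hx)
            · exact Or.inr ⟨hx, h⟩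
      rw [this]
      exact h2
    · rw [Finset.card_erase_of_mem hwτ, h3]
  obtain ⟨c0, hc0On, hc0bd⟩ := IH hws hPBw hj y hyOn hybd
  -- the retraction
  let good : M → Prop := fun u => (∃ σ ∈ z.support, u ∈ σ) ∨ N (L u) < N (L w) ∨ u ∈ insert w s
  let q : M → R := fun u => if good u then 0 else (hN (L u) (L w) hw).choose
  have hqgood : ∀ u, good u → q u = 0 := fun u hu => if_pos hu
  have hqbad : ∀ u, ¬ good u → N (L (u - q u • w)) < N (L w) := by
    intro u hu
    have h1 : q u = (hN (L u) (L w) hw).choose := if_neg hu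
    rw [map_sub, map_smul, smul_eq_mul, h1]
    exact (hN (L u) (L w) hw).choose_spec
  set φ : M → M := fun u => u - q u • w with hφ
  have hφgood : ∀ u, good u → φ u = u := by
    intro u hu
    simp only [hφ]
    rw [hqgood u hu, zero_smul, sub_zero]
  have hqw : q w = 0 := hqgood w (Or.inr (Or.inr (Finset.mem_insert_self _ _)))
  have hstep : ∀ σ ∈ c0.support, Set.InjOn φ ((insert w s ∪ σ : Finset M) : Set M) ∧
      PB R ((insert w s ∪ σ).image φ) := by
    intro σ hσ
    exact PB_shear (Finset.mem_union_left _ (Finset.mem_insert_self _ _)) q hqw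
      (hc0On σ hσ).1.2
  set c1 : Ch M := push φ c0 with hc1
  have himg : ∀ σ : Finset M, (insert w s ∪ σ).image φ = insert w s ∪ σ.image φ := by
    intro σ
    rw [Finset.image_union]
    congr 1
    ext x
    rw [Finset.mem_image]
    constructor
    · rintro ⟨u, hu, rfl⟩
      rw [hφgood u (Or.inr (Or.inr hu))]
      exact hu
    · intro hx
      exact ⟨x, hx, hφgood x (Or.inr (Or.inr hx))⟩
  have hc1On : On (Lk R (insert w s)) j c1 := by
    intro σ hσ
    obtain ⟨ρ, hρ, rfl⟩ := mem_support_push hσ
    obtain ⟨⟨h1, h2⟩, h3⟩ := hc0On ρ hρ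
    obtain ⟨h4, h5⟩ := hstep ρ hρ
    refine ⟨⟨?_, ?_⟩, ?_⟩
    · rw [Finset.disjoint_left]
      intro x hx hxs
      obtain ⟨u, hu, rfl⟩ := Finset.mem_image.1 hx
      have h6 : φ (φ u) = φ u := hφgood _ (Or.inr (Or.inr hxs))
      have h7 : φ u = u := h4 (by
        rw [Finset.coe_union]
        exact Or.inl hxs) (by
        rw [Finset.coe_union]
        exact Or.inr hu) h6
      rw [h7] at hxs
      exact Finset.disjoint_left.1 h1 hu hxs
    · rw [← himg]
      exact h5
    · rw [Finset.card_image_of_injOn (h4.mono (by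
        rw [Finset.coe_union]
        exact Set.subset_union_right)), h3]
      omega
  have hc1bd : bd c1 = y := by
    rw [hc1, bd_push, hc0bd]
    · refine push_eq_self φ y ?_
      intro σ hσ v hv
      obtain ⟨τ, hτ, hwτ, rfl⟩ := mem_support_lnk hσ
      exact hφgood v (Or.inl ⟨τ, hτ, Finset.mem_of_mem_erase hv⟩)
    · intro σ hσ
      exact (hstep σ hσ).1.mono (by
        rw [Finset.coe_union]
        exact Set.subset_union_right)
  have hc1vert : ∀ σ ∈ c1.support, ∀ v ∈ σ,
      (v ≠ w ∧ ∃ σ ∈ z.support, v ∈ σ) ∨ N (L v) < N (L w) := by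
    intro σ hσ v hv
    have hnw : v ≠ w := by
      rintro rfl
      exact Finset.disjoint_left.1 (hc1On σ hσ).1.1 hv (Finset.mem_insert_self _ _)
    obtain ⟨ρ, hρ, rfl⟩ := mem_support_push hσ
    obtain ⟨u, hu, rfl⟩ := Finset.mem_image.1 hv
    by_cases hg : good u
    · rw [hφgood u hg] at hnw ⊢
      rcases hg with h | h | h
      · exact Or.inl ⟨hnw, h⟩
      · exact Or.inr h
      · exact absurd h (Finset.disjoint_left.1 (hc0On ρ hρ).1.1 hu)
    · exact Or.inr (hqbad u hg)
  refine ⟨cone w c1, ?_, ?_⟩
  · intro τ hτ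
    obtain ⟨σ, hσ, hwσ, rfl⟩ := mem_support_cone hτ
    obtain ⟨⟨h1, h2⟩, h3⟩ := hc1On σ hσ
    refine ⟨⟨?_, ?_⟩, ?_⟩
    · rw [Finset.disjoint_insert_left]
      exact ⟨hws, Finset.disjoint_of_subset_right (Finset.subset_insert _ _) h1⟩
    · rw [Finset.union_insert, ← Finset.insert_union]
      exact h2
    · rw [Finset.card_insert_of_notMem hwσ, h3]
  · have h1 := bd_cone w c1
    rw [hc1bd] at h1
    have h2 : z + bd (cone w c1) = dlt w z + c1 := by
      have h3 := decomp w z
      have h4 : bd (cone w c1) = c1 + cone w y := by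
        rw [← ch_sub, eq_sub_iff_add_eq]
        exact h1
      rw [h4]
      nth_rewrite 1 [← h3]
      rw [← hy]
      have h5 : cone w y + dlt w z + (c1 + cone w y) = (cone w y + cone w y) + (dlt w z + c1) := by
        abel
      rw [h5, ch_add_self, zero_add]
    intro τ hτ v hv
    rw [h2] at hτ
    rcases mem_support_add hτ with h | h
    · obtain ⟨h5, h6⟩ := mem_support_dlt h
      left
      refine ⟨?_, τ, h5, hv⟩
      rintro rfl
      exact h6 hv
    · exact hc1vert τ h v hv

/-- Maazen: links in the complex of partial bases of a free module over a Euclidean ring -/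
theorem fills_Lk [IsDomain R] [IsPrincipalIdealRing R] [Module.Free R M] [Module.Finite R M]
    (N : R → ℕ) (hN0 : N 0 = 0) (hN : ∀ a b : R, b ≠ 0 → ∃ q : R, N (a - q * b) < N b)
    (s : Finset M) (hs : PB R s) (j : ℕ) (hj : j + s.card + 1 ≤ Module.finrank R M) :
    Fills (Lk R s) j := by
  suffices H : ∀ d : ℕ, ∀ (s : Finset M), PB R s → ∀ j : ℕ, j + s.card + 1 ≤ Module.finrank R M →
      Module.finrank R M ≤ s.card + d → Fills (Lk R s) j from
    H (Module.finrank R M) s hs j hj (by omega)
  intro d
  induction d with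
  | zero => intro s _ j hj hd; omega
  | succ d IHd =>
    intro s hs j hj hd
    obtain ⟨e, L, hLe, hL0⟩ := exists_ext hs (by omega)
    have IH : ∀ w, w ∉ s → PB R (insert w s) → 1 ≤ j → Fills (Lk R (insert w s)) (j - 1) := by
      intro w hws hPB h1
      have hc := Finset.card_insert_of_notMem hws
      exact IHd (insert w s) hPB (j - 1) (by omega) (by omega)
    -- A r: cycles with all levels < r + 1
    have hNpos : ∀ b : R, N b = 0 → b = 0 := by
      intro b hb
      by_contra hne
      obtain ⟨q, hq⟩ := hN 0 b hne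
      omega
    have A : ∀ r : ℕ, ∀ z : Ch M, On (Lk R s) j z → bd z = 0 →
        (∀ τ ∈ z.support, ∀ v ∈ τ, N (L v) < r + 1) →
        ∃ y : Ch M, On (Lk R s) (j + 1) y ∧ bd y = z := by
      intro r
      induction r with
      | zero =>
        intro z hz hbd hlev
        exact fill_cone hz hbd hLe hL0 fun τ hτ v hv => hNpos _ (by have := hlev τ hτ v hv; omega)
      | succ r IHr =>
        have B : ∀ W : Finset M, ∀ z : Ch M, On (Lk R s) j z → bd z = 0 →
            (∀ τ ∈ z.support, ∀ v ∈ τ, N (L v) < r + 1 ∨ v ∈ W) → (∀ v ∈ W, N (L v) = r + 1) →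
            ∃ y : Ch M, On (Lk R s) (j + 1) y ∧ bd y = z := by
          intro W
          induction W using Finset.induction_on with
          | empty =>
            intro z hz hbd hlev _
            refine IHr z hz hbd fun τ hτ v hv => ?_
            rcases hlev τ hτ v hv with h | h
            · exact h
            · simp at h
          | insert w W hwW IHW =>
            intro z hz hbd hlev hW
            have hNw : N (L w) = r + 1 := hW w (Finset.mem_insert_self _ _)
            have hw0 : L w ≠ 0 := by
              intro h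
              rw [h, hN0] at hNw
              omega
            obtain ⟨c, hc, hcv⟩ := remove_vertex N hN hz hbd L hw0 (IH w)
            have hz' : On (Lk R s) j (z + bd c) := On.add hz (On.bd (Lk_erase s) hc)
            obtain ⟨y, hy, hyb⟩ := IHW (z + bd c) hz' (by rw [map_add, hbd, bd_bd, add_zero]) (by
              intro τ hτ v hv
              rcases hcv τ hτ v hv with ⟨h1, σ, hσ, h2⟩ | h
              · rcases hlev σ hσ v h2 with h3 | h3
                · exact Or.inl h3
                · rcases Finset.mem_insert.1 h3 with h4 | h4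
                  · exact absurd h4 h1
                  · exact Or.inr h4
              · left
                omega) (fun v hv => hW v (Finset.mem_insert_of_mem hv))
            refine ⟨y + c, ?_, ?_⟩
            · intro σ hσ
              rcases mem_support_add hσ with h | h
              · exact hy σ h
              · exact hc σ h
            · rw [map_add, hyb, add_assoc, ch_add_self, add_zero]
        intro z hz hbd hlev
        refine B ((z.support.biUnion id).filter fun v => N (L v) = r + 1) z hz hbd ?_ ?_
        · intro τ hτ v hv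
          rcases Nat.lt_or_ge (N (L v)) (r + 1) with h | h
          · exact Or.inl h
          · right
            rw [Finset.mem_filter]
            refine ⟨Finset.mem_biUnion.2 ⟨τ, hτ, hv⟩, ?_⟩
            have := hlev τ hτ v hv
            omega
        · intro v hv
          exact (Finset.mem_filter.1 hv).2
    intro z hz hbd
    refine A ((z.support.biUnion id).sup fun v => N (L v)) z hz hbd ?_
    intro τ hτ v hv
    have := Finset.le_sup (f := fun v => N (L v)) (Finset.mem_biUnion.2 ⟨τ, hτ, hv⟩ :
      v ∈ z.support.biUnion id)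
    exact Nat.lt_succ_of_le this

/-- the complex of partial bases itself -/
theorem fills_PB [IsDomain R] [IsPrincipalIdealRing R] [Module.Free R M] [Module.Finite R M]
    (N : R → ℕ) (hN0 : N 0 = 0) (hN : ∀ a b : R, b ≠ 0 → ∃ q : R, N (a - q * b) < N b)
    (j : ℕ) (hj : j + 1 ≤ Module.finrank R M) : Fills {t : Finset M | PB R t} j := by
  have h := fills_Lk (R := R) (M := M) N hN0 hN ∅ PB_empty j (by rw [Finset.card_empty]; omega)
  have h2 : Lk R (∅ : Finset M) = {t : Finset M | PB R t} := by
    ext t
    simp [Lk]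
  rw [h2] at h
  exact h

end Vale.P067.D2
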