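import Mathlib

/-!
# P067 D2.3: `SL_n(k[X]) → SL_n(k[X]/X^m)` is surjective (divisibility form)

Proof (no local rings).  Claim by induction on `t`: for `t ≤ m` there is `g ∈ SL_n(k[X])` with
`X^t ∣ g i j - A i j` for all `i j`.
`t = 0`: `g = 1`.  `t = 1`: `g = ` the constant matrix `C (A i j (0))`, of determinant
`C (det A (0)) = 1` (`Polynomial.constantCoeff` / `Polynomial.eval 0` is a ring hom,
`RingHom.map_det`).
`t → t + 1`, `1 ≤ t < m`: `A' = g⁻¹ A ≡ 1 mod X^t`, write `A' ≡ 1 + X^t C(B) mod X^(t+1)` with
`B : Matrix (Fin n) (Fin n) k`.  `det (1 + X^t M) ≡ 1 + X^t tr M mod X^(t+1)` (as `2t ≥ t+1`;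
`Matrix.det_one_add_mul_comm`, `Matrix.det_one_add_smul`, or `Matrix.det_one_add_X_smul`) and
`det A' ≡ 1 mod X^m` give `tr B = 0`.
Let `S = {B : Matrix _ _ k | ∃ h ∈ SL_n(k[X]), X^(t+1) ∣ h i j - (1 + X^t C(B)) i j}`: contains `0`,
closed under addition (product of the `h`), contains `Matrix.single i j c` (`i ≠ j`,
`h = transvection i j (X^t C c)`), and for `i ≠ l` it contains
`c E_ii - c E_il + c E_li - c E_ll` (`h` = `1 + X^t c (E_ii - E_il + E_li - E_ll)`, which is
`e_{il}(1) e_{li}(X^t c) e_{il}(-1)`), hence `c (E_ii - E_ll)`.  So every `B` of trace zero is in `S`.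
With `h` for `B`: `g h` works for `t + 1`.
-/

namespace Vale.P067.D2

open scoped Classical
open Polynomial

section aux

variable {k : Type*} [Field k] {n : ℕ}

/-- `1 + X^(s+1) B` lifts to a matrix of determinant one, modulo `X^(s+2)`. -/
private def GoodB (s : ℕ) (B : Matrix (Fin n) (Fin n) k) : Prop :=
  ∃ h E : Matrix (Fin n) (Fin n) k[X], h.det = 1 ∧
    h = 1 + (X : k[X]) ^ (s + 1) • B.map C + (X : k[X]) ^ (s + 2) • E

private theorem good_zero (s : ℕ) : GoodB s (0 : Matrix (Fin n) (Fin n) k) :=
  ⟨1, 0, Matrix.det_one, by simp⟩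

private theorem map_add' (A B : Matrix (Fin n) (Fin n) k) :
    (A + B).map C = A.map C + B.map (C : k →+* k[X]) :=
  Matrix.map_add _ (fun _ _ => C_add) A B

private theorem sneg {R : Type*} [Ring R] (i j : Fin n) (c : R) :
    Matrix.single i j (-c) = -Matrix.single i j c := by
  ext a b
  by_cases h : i = a ∧ j = b <;> simp [Matrix.single, h]

private theorem good_add (s : ℕ) (A B : Matrix (Fin n) (Fin n) k) (hA : GoodB s A)
    (hB : GoodB s B) : GoodB s (A + B) := by
  obtain ⟨h, E, h1, h2⟩ := hA
  obtain ⟨h', E', h1', h2'⟩ := hB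
  refine ⟨h * h', E + E' + (X : k[X]) ^ s • (A.map C * B.map C) +
    (X : k[X]) ^ (s + 1) • (A.map C * E' + E * B.map C) + (X : k[X]) ^ (s + 2) • (E * E'), ?_, ?_⟩
  · rw [Matrix.det_mul, h1, h1', one_mul]
  · rw [h2, h2', map_add']
    simp only [add_mul, mul_add, Matrix.smul_mul, Matrix.mul_smul, one_mul, mul_one]
    module

private theorem good_single (s : ℕ) (i j : Fin n) (hij : i ≠ j) (c : k) :
    GoodB s (Matrix.single i j c) := by
  refine ⟨Matrix.transvection i j ((X : k[X]) ^ (s + 1) * C c), 0,
    Matrix.det_transvection_of_ne i j hij _, ?_⟩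
  unfold Matrix.transvection
  rw [smul_zero, add_zero, Matrix.map_single, Matrix.smul_single, smul_eq_mul]

private theorem good_conj (s : ℕ) (i l : Fin n) (hil : i ≠ l) (c : k) :
    GoodB s (Matrix.single l i c + Matrix.single i i c + Matrix.single l l (-c) +
      Matrix.single i l (-c)) := by
  refine ⟨Matrix.transvection i l (1 : k[X]) *
    Matrix.transvection l i ((X : k[X]) ^ (s + 1) * C c) * Matrix.transvection i l (-1 : k[X]),
    0, ?_, ?_⟩
  · rw [Matrix.det_mul, Matrix.det_mul, Matrix.det_transvection_of_ne i l hil,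
      Matrix.det_transvection_of_ne i l hil, Matrix.det_transvection_of_ne l i hil.symm]
    simp
  · have hm : (Matrix.single l i c + Matrix.single i i c + Matrix.single l l (-c) +
        Matrix.single i l (-c)).map (C : k →+* k[X]) = Matrix.single l i (C c) +
        Matrix.single i i (C c) + Matrix.single l l (-C c) + Matrix.single i l (-C c) := by
      rw [map_add', map_add', map_add', Matrix.map_single, Matrix.map_single, Matrix.map_single,
        Matrix.map_single, C_neg]
    rw [hm, smul_zero, add_zero]
    unfold Matrix.transvection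
    simp only [add_mul, mul_add, one_mul, mul_one, Matrix.single_mul_single_same,
      Matrix.single_mul_single_of_ne _ _ _ _ hil.symm, smul_add, Matrix.smul_single, smul_eq_mul,
      mul_neg, add_zero, sneg, smul_neg]
    abel

private theorem good_diag (s : ℕ) (i l : Fin n) (hil : i ≠ l) (c : k) :
    GoodB s (Matrix.single i i c + Matrix.single l l (-c)) := by
  have h1 := good_conj s i l hil c
  have h2 := good_single s i l hil c
  have h3 := good_single s l i hil.symm (-c)
  have h4 := good_add s _ _ (good_add s _ _ h1 h2) h3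
  have h5 : Matrix.single l i c + Matrix.single i i c + Matrix.single l l (-c) +
      Matrix.single i l (-c) + Matrix.single i l c + Matrix.single l i (-c) =
      Matrix.single i i c + Matrix.single l l (-c) := by
    simp only [sneg]
    abel
  rw [h5] at h4
  exact h4

private theorem good_sum (s : ℕ) {ι : Type*} (t : Finset ι) (f : ι → Matrix (Fin n) (Fin n) k)
    (h : ∀ a ∈ t, GoodB s (f a)) : GoodB s (∑ a ∈ t, f a) :=
  Finset.sum_induction f (GoodB s) (good_add s) (good_zero s) h

private theorem good_trace_zero (s : ℕ) (B : Matrix (Fin n) (Fin n) k) (hB : B.trace = 0) :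
    GoodB s B := by
  rcases Nat.eq_zero_or_pos n with rfl | hn
  · have : B = 0 := by
      ext i
      exact i.elim0
    rw [this]
    exact good_zero s
  · let l : Fin n := ⟨0, hn⟩
    have h1 : B = ∑ i, ∑ j, (if i = j then Matrix.single i i (B i i) + Matrix.single l l (-(B i i))
        else Matrix.single i j (B i j)) := by
      have h2 : ∀ i j, (if i = j then Matrix.single i i (B i i) + Matrix.single l l (-(B i i))
          else Matrix.single i j (B i j)) = Matrix.single i j (B i j) +
          (if i = j then Matrix.single l l (-(B i i)) else 0) := by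
        intro i j
        by_cases hij : i = j
        · subst hij
          simp
        · simp [hij]
      simp only [h2, Finset.sum_add_distrib, ← Matrix.matrix_eq_sum_single]
      have h3 : (∑ i, ∑ j, (if i = j then Matrix.single l l (-(B i i)) else
          (0 : Matrix (Fin n) (Fin n) k))) = 0 := by
        simp only [Finset.sum_ite_eq, Finset.mem_univ, if_true]
        have h4 : (∑ i, Matrix.single l l (-(B i i)) : Matrix (Fin n) (Fin n) k) =
            Matrix.single l l (∑ i, -(B i i)) := by
          have := map_sum (Matrix.singleAddMonoidHom l l : k →+ Matrix (Fin n) (Fin n) k)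
            (fun i => -(B i i)) Finset.univ
          exact this.symm
        rw [h4, Finset.sum_neg_distrib]
        have h5 : ∑ i, B i i = 0 := hB
        rw [h5, neg_zero, Matrix.single_zero]
      rw [h3, add_zero]
    rw [h1]
    refine good_sum s _ _ fun i _ => good_sum s _ _ fun j _ => ?_
    by_cases hij : i = j
    · rw [if_pos hij]
      by_cases hil : i = l
      · rw [hil, sneg, add_neg_cancel]
        exact good_zero s
      · exact good_diag s i l hil _
    · rw [if_neg hij]
      exact good_single s i j hij _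

private theorem surj_aux (m : ℕ) (A : Matrix (Fin n) (Fin n) k[X])
    (hA : (X : k[X]) ^ m ∣ A.det - 1) : ∀ t, t ≤ m →
    ∃ g E : Matrix (Fin n) (Fin n) k[X], g.det = 1 ∧ g = A + (X : k[X]) ^ t • E
  | 0, _ => ⟨1, 1 - A, Matrix.det_one, by simp⟩
  | 1, hm => by
    have hX : (X : k[X]) ∣ A.det - 1 := (dvd_pow_self _ (by omega)).trans hA
    refine ⟨(A.map constantCoeff).map C, (A.map fun a => -a.divX), ?_, ?_⟩
    · have h1 : ((A.map constantCoeff).map C).det = C (constantCoeff A.det) := by
        rw [RingHom.map_det, RingHom.map_det]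
        rfl
      rw [h1]
      have h2 : constantCoeff (A.det - 1) = 0 := by
        rw [constantCoeff_apply]
        exact X_dvd_iff.1 hX
      rw [map_sub, map_one, sub_eq_zero] at h2
      rw [h2, C_1]
    · ext1 i j
      have h3 := divX_mul_X_add (A i j)
      simp only [Matrix.map_apply, constantCoeff_apply, Matrix.add_apply, Matrix.smul_apply,
        smul_eq_mul, pow_one]
      linear_combination h3
  | t + 2, hm => by
    obtain ⟨g, E, hg, hgE⟩ := surj_aux m A hA (t + 1) (by omega)
    have hu : IsUnit g.det := by rw [hg]; exact isUnit_one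
    have hg1 : g⁻¹ * g = 1 := Matrix.nonsing_inv_mul g hu
    have hg2 : g * g⁻¹ = 1 := Matrix.mul_nonsing_inv g hu
    set F : Matrix (Fin n) (Fin n) k[X] := -(g⁻¹ * E) with hF
    have hA' : g⁻¹ * A = 1 + (X : k[X]) ^ (t + 1) • F := by
      have h1 : A = g - (X : k[X]) ^ (t + 1) • E := by rw [hgE]; abel
      rw [h1, mul_sub, hg1, hF, Matrix.mul_smul, smul_neg, sub_eq_add_neg]
    have hdet : (1 + (X : k[X]) ^ (t + 1) • F).det = A.det := by
      rw [← hA', Matrix.det_mul, Matrix.det_nonsing_inv, hg]
      simp
    have htr : (X : k[X]) ∣ F.trace := by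
      rw [Matrix.det_one_add_smul] at hdet
      have h1 : (X : k[X]) ^ (t + 2) ∣ A.det - 1 := (pow_dvd_pow _ hm).trans hA
      rw [← hdet] at h1
      generalize eval (X ^ (t + 1)) (Matrix.det (1 + (X : k[X][X]) • F.map C)).divX.divX = q at h1
      have h2 : (X : k[X]) ^ (t + 2) ∣ q * (X ^ (t + 1)) ^ 2 :=
        ⟨q * X ^ t, by ring⟩
      have h3 : (X : k[X]) ^ (t + 1) * X ∣ X ^ (t + 1) * F.trace := by
        have h4 := dvd_sub h1 h2
        have e1 : 1 + F.trace * X ^ (t + 1) + q * (X ^ (t + 1)) ^ 2 - 1 - q * (X ^ (t + 1)) ^ 2 =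
            X ^ (t + 1) * F.trace := by ring
        rw [e1] at h4
        rw [← pow_succ]
        exact h4
      exact (mul_dvd_mul_iff_left (pow_ne_zero _ X_ne_zero)).1 h3
    have htr0 : (F.map constantCoeff).trace = 0 := by
      have h1 : (F.map constantCoeff).trace = constantCoeff F.trace := by
        unfold Matrix.trace
        rw [map_sum]
        rfl
      rw [h1, constantCoeff_apply]
      exact X_dvd_iff.1 htr
    obtain ⟨h, E', hh, hE'⟩ := good_trace_zero t (F.map constantCoeff) htr0
    have hFC : F = (F.map constantCoeff).map C + (X : k[X]) • F.map divX := by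
      ext1 i j
      have h3 := divX_mul_X_add (F i j)
      simp only [Matrix.map_apply, constantCoeff_apply, Matrix.add_apply, Matrix.smul_apply,
        smul_eq_mul]
      linear_combination -h3
    refine ⟨g * h, g * (E' - F.map divX), ?_, ?_⟩
    · rw [Matrix.det_mul, hg, hh, one_mul]
    · have h4 : A = g * (1 + (X : k[X]) ^ (t + 1) • F) := by
        rw [← hA', ← mul_assoc, hg2, one_mul]
      have h5 : h = (1 + (X : k[X]) ^ (t + 1) • F) + (X : k[X]) ^ (t + 2) • (E' - F.map divX) := by
        rw [hE']
        conv_rhs => rw [hFC]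
        have h6 : ((F.map constantCoeff).map C + (X : k[X]) • F.map divX).map divX =
            F.map divX := by rw [← hFC]
        rw [h6]
        module
      rw [h5, mul_add, ← h4, Matrix.mul_smul]

end aux

theorem SL_surj (k : Type*) [Field k] {n : ℕ} (m : ℕ) (A : Matrix (Fin n) (Fin n) k[X])
    (hA : (X : k[X]) ^ m ∣ A.det - 1) :
    ∃ g : Matrix.SpecialLinearGroup (Fin n) k[X],
      ∀ i j, (X : k[X]) ^ m ∣ (g : Matrix (Fin n) (Fin n) k[X]) i j - A i j := by
  obtain ⟨g, E, hg, hgE⟩ := surj_aux m A hA m le_rfl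
  refine ⟨⟨g, hg⟩, fun i j => ⟨E i j, ?_⟩⟩
  change g i j - A i j = _
  rw [hgE]
  simp

end Vale.P067.D2
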