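import Vale.Agent.Lib.P067.D2.Std
import Vale.Agent.Lib.P067.D2.Surj
import Vale.Agent.Lib.P067.Dec

/-!
# P067 D2.3 (α), (β): lifting partial bases modulo `X^m`
-/

namespace Vale.P067.D2

open scoped Classical Matrix
open Vale.P067 Polynomial

variable (k : Type*) [Field k]

/-- reduction modulo `X^m` -/
noncomputable abbrev red (m : ℕ) : k[X] →+* k[X] ⧸ Ideal.span {(X : k[X]) ^ m} :=
  Ideal.Quotient.mk _

theorem red_eq_iff (m : ℕ) (a b : k[X]) : red k m a = red k m b ↔ (X : k[X]) ^ m ∣ a - b := by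
  rw [Ideal.Quotient.eq, Ideal.mem_span_singleton]

/-- a matrix over `k[X]` with invertible constant part, last `q ≥ 1` columns free: lifting (α) -/
theorem lift_alpha {p q m : ℕ} (hq : 0 < q) (w : Fin p → (Fin (p + q) → k[X]))
    (hw : LinearIndependent k (fun i : Fin p => fun l : Fin (p + q) => (w i l).coeff 0)) :
    ∃ v : Fin p → (Fin (p + q) → k[X]), Function.Injective v ∧
      PB k[X] (Finset.univ.image v) ∧ ∀ i l, (X : k[X]) ^ m ∣ v i l - w i l := by
  -- extend to a basis of `k^n`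
  set W : Fin p → (Fin (p + q) → k) := fun i l => (w i l).coeff 0 with hW
  obtain ⟨b, hb⟩ : ∃ b : Module.Basis (Fin (p + q)) k (Fin (p + q) → k),
      ∀ i, b (Fin.castAdd q i) = W i := by
    have hli : LinearIndepOn k id (Set.range W) := hw.linearIndepOn_id
    have hPB : PB k (Finset.univ.image W) := by
      refine PB_of_basis (Module.Basis.extend hli) _ ?_
      intro v hv
      obtain ⟨i, _, rfl⟩ := Finset.mem_image.1 hv
      rw [Module.Basis.range_extend]
      exact Module.Basis.subset_extend hli ⟨i, rfl⟩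
    exact exists_basis (Fin.castAddEmb q) W hw.injective hPB
  -- the matrix `A` with columns `w i` and the constants
  set A : Matrix (Fin (p + q)) (Fin (p + q)) k[X] :=
    Matrix.of fun l c => Fin.addCases (fun i => w i l) (fun j => C (b (Fin.natAdd p j) l)) c with hA
  have hA0 : ∀ l c, (A l c).coeff 0 = b c l := by
    intro l c
    rw [hA, Matrix.of_apply]
    refine Fin.addCases (fun i => ?_) (fun j => ?_) c
    · rw [Fin.addCases_left, hb]
    · rw [Fin.addCases_right, coeff_C_zero]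
  have hdet0 : (A.det).coeff 0 ≠ 0 := by
    have h1 : (A.det).coeff 0 = (A.map (constantCoeff (R := k))).det := by
      have := RingHom.map_det (constantCoeff (R := k)) A
      rw [← constantCoeff_apply, this]
      rfl
    have h2 : A.map (constantCoeff (R := k)) = (Pi.basisFun k (Fin (p + q))).toMatrix b := by
      ext l c
      rw [Matrix.map_apply, constantCoeff_apply, hA0, Module.Basis.toMatrix_apply,
        Pi.basisFun_repr]
    rw [h1, h2]
    have h3 := (Pi.basisFun k (Fin (p + q))).isUnit_det b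
    rw [Module.Basis.det_apply] at h3
    exact h3.ne_zero
  have hcop : IsCoprime (A.det) ((X : k[X]) ^ m) := by
    refine IsCoprime.pow_right ?_
    rw [← sub_zero (X : k[X]), ← C_0]
    refine (IsCoprime.symm ?_)
    rw [(irreducible_X_sub_C (0 : k)).coprime_iff_not_dvd, dvd_iff_isRoot, IsRoot.def,
      ← coeff_zero_eq_eval_zero]
    exact hdet0
  obtain ⟨r, s, hrs⟩ := hcop
  -- scale a column
  set c0 : Fin (p + q) := Fin.natAdd p ⟨0, hq⟩ with hc0
  set A' := A.updateCol c0 (r • fun l => A l c0) with hA'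
  have hdet : (X : k[X]) ^ m ∣ A'.det - 1 := by
    rw [hA', Matrix.det_updateCol_smul]
    have : A.updateCol c0 (fun l => A l c0) = A := by
      ext i j
      rw [Matrix.updateCol_apply]
      by_cases h : j = c0
      · rw [if_pos h, h]
      · rw [if_neg h]
    rw [this]
    refine ⟨-s, ?_⟩
    have : r * A.det = 1 - s * X ^ m := by rw [← hrs]; ring
    rw [this]
    ring
  obtain ⟨g, hg⟩ := SL_surj k m A' hdet
  have hunit : IsUnit (g : Matrix (Fin (p + q)) (Fin (p + q)) k[X]).det := by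
    rw [g.det_coe]
    exact isUnit_one
  -- basis of columns
  let gl : (Fin (p + q) → k[X]) ≃ₗ[k[X]] (Fin (p + q) → k[X]) :=
    Matrix.toLinearEquiv' (g : Matrix (Fin (p + q)) (Fin (p + q)) k[X])
      (Matrix.invertibleOfIsUnitDet _ hunit)
  let bb : Module.Basis (Fin (p + q)) k[X] (Fin (p + q) → k[X]) :=
    (Pi.basisFun k[X] (Fin (p + q))).map gl
  have hbb : ∀ c l, bb c l = (g : Matrix (Fin (p + q)) (Fin (p + q)) k[X]) l c := by
    intro c l
    have h1 : bb c = (g : Matrix (Fin (p + q)) (Fin (p + q)) k[X]) *ᵥ Pi.single c 1 := by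
      simp only [bb, Module.Basis.map_apply, Pi.basisFun_apply]
      rfl
    rw [h1, Matrix.mulVec_single_one]
    rfl
  refine ⟨fun i => bb (Fin.castAdd q i), ?_, ?_, ?_⟩
  · intro i j hij
    exact Fin.castAdd_injective p q (bb.injective hij)
  · refine PB_of_basis bb _ ?_
    intro v hv
    obtain ⟨i, _, rfl⟩ := Finset.mem_image.1 hv
    exact ⟨_, rfl⟩
  · intro i l
    beta_reduce
    rw [hbb]
    have h1 := hg l (Fin.castAdd q i)
    have h2 : A' l (Fin.castAdd q i) = w i l := by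
      rw [hA', Matrix.updateCol_apply, if_neg]
      · rw [hA, Matrix.of_apply, Fin.addCases_left]
      · rw [hc0]
        intro h
        have := congrArg Fin.val h
        simp at this
        omega
    rw [h2] at h1
    exact h1

/-- the reduction of a matrix -/
theorem map_red_eq_iff {ι : Type*} (m : ℕ) (A B : Matrix ι ι k[X]) :
    A.map (red k m) = B.map (red k m) ↔ ∀ i j, (X : k[X]) ^ m ∣ A i j - B i j := by
  constructor
  · intro h i j
    rw [← red_eq_iff]
    have := congrFun (congrFun h i) j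
    simpa using this
  · intro h
    ext i j
    rw [Matrix.map_apply, Matrix.map_apply, red_eq_iff]
    exact h i j

theorem mulVec_inv_self {n : ℕ} (g : Matrix.SpecialLinearGroup (Fin n) k[X])
    (x y : Fin n → k[X]) (h : (g : Matrix (Fin n) (Fin n) k[X]) *ᵥ x = y) :
    ((g⁻¹ : Matrix.SpecialLinearGroup (Fin n) k[X]) : Matrix (Fin n) (Fin n) k[X]) *ᵥ y = x := by
  rw [← h, Matrix.mulVec_mulVec, ← Matrix.SpecialLinearGroup.coe_mul, inv_mul_cancel,
    Matrix.SpecialLinearGroup.coe_one, Matrix.one_mulVec]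

theorem beta_col {n p m : ℕ} (ι : Fin p → Fin n) (v v' : Fin p → (Fin n → k[X]))
    (hcong : ∀ i l, (X : k[X]) ^ m ∣ v i l - v' i l)
    (g1 g2 : Matrix.SpecialLinearGroup (Fin n) k[X])
    (hg1 : ∀ i, (g1 : Matrix (Fin n) (Fin n) k[X]) *ᵥ Pi.single (ι i) 1 = v i)
    (hg2 : ∀ i, (g2 : Matrix (Fin n) (Fin n) k[X]) *ᵥ Pi.single (ι i) 1 = v' i)
    (a : Fin n) (i : Fin p) : (X : k[X]) ^ m ∣
      ((g1⁻¹ * g2 : Matrix.SpecialLinearGroup (Fin n) k[X]) : Matrix (Fin n) (Fin n) k[X]) a (ι i) -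
        (1 : Matrix (Fin n) (Fin n) k[X]) a (ι i) := by
  have h2 : ((g1⁻¹ * g2 : Matrix.SpecialLinearGroup (Fin n) k[X]) : Matrix (Fin n) (Fin n) k[X])
      a (ι i) = (((g1⁻¹ : Matrix.SpecialLinearGroup (Fin n) k[X]) : Matrix (Fin n) (Fin n) k[X])
        *ᵥ v' i) a := by
    rw [← hg2 i, Matrix.mulVec_mulVec, ← Matrix.SpecialLinearGroup.coe_mul,
      Matrix.mulVec_single_one]
    rfl
  have h3 : (1 : Matrix (Fin n) (Fin n) k[X]) a (ι i) =
      (((g1⁻¹ : Matrix.SpecialLinearGroup (Fin n) k[X]) : Matrix (Fin n) (Fin n) k[X])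
        *ᵥ v i) a := by
    rw [mulVec_inv_self k g1 _ _ (hg1 i), Pi.single_apply, Matrix.one_apply]
  rw [h2, h3, ← Pi.sub_apply, ← Matrix.mulVec_sub]
  rw [Matrix.mulVec, dotProduct]
  refine Finset.dvd_sum fun b _ => ?_
  refine Dvd.dvd.mul_left ?_ _
  rw [Pi.sub_apply, ← dvd_neg, neg_sub]
  exact hcong i b

/-- an element of `SL` whose first `p` columns are standard modulo `X^m` is congruent to an element
fixing the first `p` standard vectors -/
theorem beta_lift {p q m : ℕ} (h : Matrix.SpecialLinearGroup (Fin (p + q)) k[X])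
    (hcol : ∀ (a : Fin (p + q)) (i : Fin p), (X : k[X]) ^ m ∣
      (h : Matrix (Fin (p + q)) (Fin (p + q)) k[X]) a (Fin.castAdd q i) -
        (1 : Matrix (Fin (p + q)) (Fin (p + q)) k[X]) a (Fin.castAdd q i)) :
    ∃ l : Matrix.SpecialLinearGroup (Fin (p + q)) k[X],
      (l : Matrix (Fin (p + q)) (Fin (p + q)) k[X]).map (red k m) =
        (h : Matrix (Fin (p + q)) (Fin (p + q)) k[X]).map (red k m) ∧
      ∀ i : Fin p, (l : Matrix (Fin (p + q)) (Fin (p + q)) k[X]) *ᵥ
        Pi.single (Fin.castAdd q i) 1 = Pi.single (Fin.castAdd q i) 1 := by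
  set H : Matrix (Fin p ⊕ Fin q) (Fin p ⊕ Fin q) k[X] :=
    (h : Matrix (Fin (p + q)) (Fin (p + q)) k[X]).submatrix finSumFinEquiv finSumFinEquiv with hH
  have hHdet : H.det = 1 := by
    rw [hH, Matrix.det_submatrix_equiv_self, h.det_coe]
  set B := H.toBlocks₁₂ with hB
  set D := H.toBlocks₂₂ with hD
  have hHred : H.map (red k m) = (Matrix.fromBlocks 1 B 0 D).map (red k m) := by
    rw [map_red_eq_iff]
    rintro (i | i) (j | j)
    · rw [Matrix.fromBlocks_apply₁₁]
      have := hcol (Fin.castAdd q i) j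
      rw [hH, Matrix.submatrix_apply, finSumFinEquiv_apply_left, finSumFinEquiv_apply_left]
      have h1 : (1 : Matrix (Fin (p + q)) (Fin (p + q)) k[X]) (Fin.castAdd q i) (Fin.castAdd q j) =
          (1 : Matrix (Fin p) (Fin p) k[X]) i j := by
        rw [Matrix.one_apply, Matrix.one_apply]
        by_cases hij : i = j
        · rw [if_pos (by rw [hij]), if_pos hij]
        · rw [if_neg (fun h' => hij (Fin.castAdd_injective p q h')), if_neg hij]
      rw [h1] at this
      exact this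
    · rw [Matrix.fromBlocks_apply₁₂, hB, Matrix.toBlocks₁₂, Matrix.of_apply, sub_self]
      exact dvd_zero _
    · rw [Matrix.fromBlocks_apply₂₁, Matrix.zero_apply]
      have := hcol (Fin.natAdd p i) j
      rw [hH, Matrix.submatrix_apply, finSumFinEquiv_apply_left, finSumFinEquiv_apply_right]
      have h1 : (1 : Matrix (Fin (p + q)) (Fin (p + q)) k[X]) (Fin.natAdd p i) (Fin.castAdd q j) =
          0 := by
        rw [Matrix.one_apply, if_neg]
        intro h'
        have := congrArg Fin.val h'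
        simp at this
        omega
      rw [h1] at this
      exact this
    · rw [Matrix.fromBlocks_apply₂₂, hD, Matrix.toBlocks₂₂, Matrix.of_apply, sub_self]
      exact dvd_zero _
  have hDdet : (X : k[X]) ^ m ∣ D.det - 1 := by
    rw [← red_eq_iff]
    have h1 := congrArg Matrix.det hHred
    have h2 := RingHom.map_det (red k m) H
    have h3 := RingHom.map_det (red k m) (Matrix.fromBlocks 1 B 0 D)
    rw [RingHom.mapMatrix_apply] at h2 h3
    rw [← h2, ← h3, hHdet, Matrix.det_fromBlocks_zero₂₁, Matrix.det_one, one_mul] at h1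
    exact h1.symm
  obtain ⟨d, hd⟩ := SL_surj k m D hDdet
  set L0 : Matrix (Fin p ⊕ Fin q) (Fin p ⊕ Fin q) k[X] :=
    Matrix.fromBlocks 1 B 0 (d : Matrix (Fin q) (Fin q) k[X]) with hL0
  have hL0det : (L0.submatrix finSumFinEquiv.symm finSumFinEquiv.symm).det = 1 := by
    rw [Matrix.det_submatrix_equiv_self, hL0, Matrix.det_fromBlocks_zero₂₁, Matrix.det_one,
      one_mul, d.det_coe]
  refine ⟨⟨L0.submatrix finSumFinEquiv.symm finSumFinEquiv.symm, hL0det⟩, ?_, ?_⟩
  · have h1 : L0.map (red k m) = H.map (red k m) := by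
      rw [hHred, map_red_eq_iff]
      rintro (i | i) (j | j)
      · rw [hL0, Matrix.fromBlocks_apply₁₁, Matrix.fromBlocks_apply₁₁, sub_self]; exact dvd_zero _
      · rw [hL0, Matrix.fromBlocks_apply₁₂, Matrix.fromBlocks_apply₁₂, sub_self]; exact dvd_zero _
      · rw [hL0, Matrix.fromBlocks_apply₂₁, Matrix.fromBlocks_apply₂₁, sub_self]; exact dvd_zero _
      · rw [hL0, Matrix.fromBlocks_apply₂₂, Matrix.fromBlocks_apply₂₂]; exact hd i j
    ext a b
    have h2 := congrFun (congrFun h1 (finSumFinEquiv.symm a)) (finSumFinEquiv.symm b)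
    rw [Matrix.map_apply, Matrix.map_apply, hH, Matrix.submatrix_apply, Equiv.apply_symm_apply,
      Equiv.apply_symm_apply] at h2
    rw [Matrix.map_apply, Matrix.map_apply]
    exact h2
  · intro i
    rw [Matrix.mulVec_single_one]
    funext a
    change (L0.submatrix finSumFinEquiv.symm finSumFinEquiv.symm) a (Fin.castAdd q i) = _
    rw [Matrix.submatrix_apply, finSumFinEquiv_symm_apply_castAdd]
    refine Fin.addCases (fun b => ?_) (fun b => ?_) a
    · rw [finSumFinEquiv_symm_apply_castAdd, hL0, Matrix.fromBlocks_apply₁₁, Matrix.one_apply,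
        Pi.single_apply]
      by_cases hij : b = i
      · rw [if_pos hij, if_pos (by rw [hij])]
      · rw [if_neg hij, if_neg (fun h' => hij (Fin.castAdd_injective p q h'))]
    · rw [finSumFinEquiv_symm_apply_natAdd, hL0, Matrix.fromBlocks_apply₂₁, Matrix.zero_apply,
        Pi.single_apply, if_neg]
      intro h'
      have := congrArg Fin.val h'
      simp at this
      omega

theorem beta_group {G : Type*} [Group G] {G' : Type*} [Group G'] (φ : G →* G') (g1 g2 l : G)
    (h : φ l = φ (g1⁻¹ * g2)) : φ (g2 * l⁻¹ * g1⁻¹) = 1 := by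
  rw [map_mul, map_mul, map_inv, h, map_mul]
  simp only [map_inv]
  group

theorem beta_cong {n m : ℕ} (g1 g2 l : Matrix.SpecialLinearGroup (Fin n) k[X])
    (hl : (l : Matrix (Fin n) (Fin n) k[X]).map (red k m) =
      ((g1⁻¹ * g2 : Matrix.SpecialLinearGroup (Fin n) k[X]) :
        Matrix (Fin n) (Fin n) k[X]).map (red k m)) (i j : Fin n) :
    (X : k[X]) ^ m ∣ ((g2 * l⁻¹ * g1⁻¹ : Matrix.SpecialLinearGroup (Fin n) k[X]) :
      Matrix (Fin n) (Fin n) k[X]) i j - (1 : Matrix (Fin n) (Fin n) k[X]) i j := by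
  have hmap : Matrix.SpecialLinearGroup.map (red k m) l =
      Matrix.SpecialLinearGroup.map (red k m) (g1⁻¹ * g2) := Subtype.ext hl
  have h1 := beta_group (Matrix.SpecialLinearGroup.map (red k m)) g1 g2 l hmap
  have h2 := congrArg (fun z : Matrix.SpecialLinearGroup (Fin n) (k[X] ⧸ Ideal.span {(X : k[X]) ^ m})
    => (z : Matrix (Fin n) (Fin n) (k[X] ⧸ Ideal.span {(X : k[X]) ^ m}))) h1
  have h3 : (1 : Matrix (Fin n) (Fin n) k[X]).map (red k m) = 1 :=
    Matrix.map_one _ (map_zero _) (map_one _)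
  refine (map_red_eq_iff k m _ _).1 ?_ i j
  rw [h3]
  exact h2

theorem beta_act {n p : ℕ} (ι : Fin p → Fin n) (v v' : Fin p → (Fin n → k[X]))
    (g1 g2 l : Matrix.SpecialLinearGroup (Fin n) k[X])
    (hg1 : ∀ i, (g1 : Matrix (Fin n) (Fin n) k[X]) *ᵥ Pi.single (ι i) 1 = v i)
    (hg2 : ∀ i, (g2 : Matrix (Fin n) (Fin n) k[X]) *ᵥ Pi.single (ι i) 1 = v' i)
    (hl : ∀ i, (l : Matrix (Fin n) (Fin n) k[X]) *ᵥ Pi.single (ι i) 1 = Pi.single (ι i) 1)
    (i : Fin p) : ((g2 * l⁻¹ * g1⁻¹ : Matrix.SpecialLinearGroup (Fin n) k[X]) :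
      Matrix (Fin n) (Fin n) k[X]) *ᵥ v i = v' i := by
  rw [Matrix.SpecialLinearGroup.coe_mul, Matrix.SpecialLinearGroup.coe_mul,
    ← Matrix.mulVec_mulVec, mulVec_inv_self k g1 _ _ (hg1 i), ← Matrix.mulVec_mulVec,
    mulVec_inv_self k l _ _ (hl i)]
  exact hg2 i

/-- (β): congruent ordered partial bases are conjugate under the congruence subgroup -/
theorem lift_beta {p q m : ℕ} (hq : 0 < q) (v v' : Fin p → (Fin (p + q) → k[X]))
    (hv : Function.Injective v) (hPB : PB k[X] (Finset.univ.image v))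
    (hv' : Function.Injective v') (hPB' : PB k[X] (Finset.univ.image v'))
    (hcong : ∀ i l, (X : k[X]) ^ m ∣ v i l - v' i l) :
    ∃ g : Matrix.SpecialLinearGroup (Fin (p + q)) k[X],
      (∀ i j, (X : k[X]) ^ m ∣ (g : Matrix (Fin (p + q)) (Fin (p + q)) k[X]) i j -
        (1 : Matrix (Fin (p + q)) (Fin (p + q)) k[X]) i j) ∧
      ∀ i, (g : Matrix (Fin (p + q)) (Fin (p + q)) k[X]) *ᵥ v i = v' i := by
  have hpq : p < p + q := by omega
  obtain ⟨g1, hg1'⟩ := exists_SL (R := k[X]) hpq (Fin.castAddEmb q) v hv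
    (Eq.mpr (congrArg (fun t => PB k[X] t) (dec_image _ _ _ _)) hPB)
  obtain ⟨g2, hg2'⟩ := exists_SL (R := k[X]) hpq (Fin.castAddEmb q) v' hv'
    (Eq.mpr (congrArg (fun t => PB k[X] t) (dec_image _ _ _ _)) hPB')
  have hg1 : ∀ i, (g1 : Matrix (Fin (p + q)) (Fin (p + q)) k[X]) *ᵥ
      Pi.single (Fin.castAdd q i) 1 = v i := fun i => hg1' i
  have hg2 : ∀ i, (g2 : Matrix (Fin (p + q)) (Fin (p + q)) k[X]) *ᵥ
      Pi.single (Fin.castAdd q i) 1 = v' i := fun i => hg2' i
  obtain ⟨l, hl1, hl2⟩ := beta_lift k (m := m) (g1⁻¹ * g2)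
    (beta_col k (Fin.castAdd q) v v' hcong g1 g2 hg1 hg2)
  exact ⟨g2 * l⁻¹ * g1⁻¹, beta_cong k g1 g2 l hl1,
    beta_act k (Fin.castAdd q) v v' g1 g2 l hg1 hg2 hl2⟩

end Vale.P067.D2
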