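import Vale.Agent.Lib.P067.D2.Chain

/-!
# P067 D2.3 (γ): the complex of independent sets of a representable matroid

`fills_indep`: for `π : V → W` (`W` finite dimensional, `π` spanning), every cycle on `j`-element
sets of vertices with linearly independent images bounds, `j + 1 ≤ dim W`.
-/

namespace Vale.P067.D2

open scoped Classical
open Vale.P067

variable {k : Type*} [Field k] {W : Type*} [AddCommGroup W] [Module k W] {V : Type*}

/-- the local family -/
def Fam (π : V → W) (V0 P : Finset V) : Set (Finset V) :=
  {τ | τ ⊆ V0 ∧ Disjoint τ P ∧ LinearIndepOn k π ((P ∪ τ : Finset V) : Set V)}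

theorem Fam_mono {π : V → W} {V0 V1 P : Finset V} (h : V0 ⊆ V1) :
    Fam (k := k) π V0 P ⊆ Fam (k := k) π V1 P :=
  fun _ hτ => ⟨hτ.1.trans h, hτ.2.1, hτ.2.2⟩

theorem On.mono {K K' : Set (Finset V)} (h : K ⊆ K') {j : ℕ} {z : Ch V} (hz : On K j z) :
    On K' j z := fun σ hσ => ⟨h (hz σ hσ).1, (hz σ hσ).2⟩

theorem fills_Fam [FiniteDimensional k W] (π : V → W) : ∀ (c : ℕ) (V0 P : Finset V) (j : ℕ),
    V0.card = c →
    j + P.card + 1 ≤ Module.finrank k (Submodule.span k (π '' ((V0 ∪ P : Finset V) : Set V))) →
    Fills (Fam (k := k) π V0 P) j := by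
  intro c
  induction c with
  | zero =>
    intro V0 P j hc hj z hz hbd
    have hV0 : V0 = ∅ := Finset.card_eq_zero.1 hc
    subst hV0
    exfalso
    rw [Finset.empty_union] at hj
    have h1 : Module.finrank k (Submodule.span k (π '' (P : Set V))) ≤ P.card := by
      have := finrank_span_finset_le_card (R := k) (P.image π)
      rw [Finset.coe_image] at this
      exact this.trans Finset.card_image_le
    omega
  | succ c IH =>
    intro V0 P j hc hj z hz hbd
    obtain ⟨x, hx⟩ : V0.Nonempty := Finset.card_pos.1 (by omega)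
    set V1 := V0.erase x with hV1
    have hV1c : V1.card = c := by
      rw [hV1, Finset.card_erase_of_mem hx]
      omega
    have hxV1 : x ∉ V1 := Finset.notMem_erase x V0
    have hins : insert x V1 = V0 := Finset.insert_erase hx
    -- rank
    by_cases hspan : π x ∈ Submodule.span k (π '' ((V1 ∪ P : Finset V) : Set V))
    · -- `x` is not a coloop: the deletion has the same rank
      have hsame : Submodule.span k (π '' ((V1 ∪ P : Finset V) : Set V)) =
          Submodule.span k (π '' ((V0 ∪ P : Finset V) : Set V)) := by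
        apply le_antisymm
        · refine Submodule.span_mono (Set.image_mono ?_)
          exact_mod_cast Finset.union_subset_union_left (Finset.erase_subset _ _)
        · rw [Submodule.span_le]
          rintro _ ⟨v, hv, rfl⟩
          by_cases hvx : v = x
          · subst hvx
            exact hspan
          · refine Submodule.subset_span ⟨v, ?_, rfl⟩
            rw [Finset.mem_coe, Finset.mem_union] at hv ⊢
            rcases hv with hv | hv
            · exact Or.inl (Finset.mem_erase.2 ⟨hvx, hv⟩)
            · exact Or.inr hv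
      have hdel : Fills (Fam (k := k) π V1 P) j := IH V1 P j hV1c (by rw [hsame]; exact hj)
      by_cases hxz : ∃ σ ∈ z.support, x ∈ σ
      swap
      · have hz1 : On (Fam (k := k) π V1 P) j z := by
          intro σ hσ
          obtain ⟨⟨h1, h2⟩, h3⟩ := hz σ hσ
          refine ⟨⟨?_, h2⟩, h3⟩
          intro v hv
          refine Finset.mem_erase.2 ⟨?_, h1 hv⟩
          rintro rfl
          exact hxz ⟨σ, hσ, hv⟩
        obtain ⟨y, hy, hyb⟩ := hdel z hz1 hbd
        exact ⟨y, On.mono (Fam_mono (Finset.erase_subset _ _)) hy, hyb⟩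
      obtain ⟨σ0, hσ0, hxσ0⟩ := hxz
      obtain ⟨⟨h01, h02, h03⟩, h04⟩ := hz σ0 hσ0
      have hxP : x ∉ P := fun h => Finset.disjoint_left.1 h02 hxσ0 h
      have hj1 : 1 ≤ j := by
        rw [← h04]
        exact Finset.card_pos.2 ⟨x, hxσ0⟩
      have hlk : Fills (Fam (k := k) π V1 (insert x P)) (j - 1) := by
        refine IH V1 (insert x P) (j - 1) hV1c ?_
        have h1 : V1 ∪ insert x P = V0 ∪ P := by
          rw [Finset.union_insert, ← Finset.insert_union, hins]
        rw [h1, Finset.card_insert_of_notMem hxP]
        omega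
      set y : Ch V := lnk x z with hy
      have hybd : bd y = 0 := by rw [hy, ← lnk_bd, hbd, map_zero]
      have hyOn : On (Fam (k := k) π V1 (insert x P)) (j - 1) y := by
        intro σ hσ
        obtain ⟨τ, hτ, hxτ, rfl⟩ := mem_support_lnk hσ
        obtain ⟨⟨h1, h2, h3⟩, h4⟩ := hz τ hτ
        refine ⟨⟨?_, ?_, ?_⟩, ?_⟩
        · exact Finset.erase_subset_erase x h1
        · rw [Finset.disjoint_insert_right]
          exact ⟨Finset.notMem_erase x τ,
            Finset.disjoint_of_subset_left (Finset.erase_subset _ _) h2⟩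
        · have : insert x P ∪ τ.erase x = P ∪ τ := by
            rw [Finset.insert_union, ← Finset.union_insert, Finset.insert_erase hxτ]
          rw [this]
          exact h3
        · rw [Finset.card_erase_of_mem hxτ, h4]
      obtain ⟨u, hu, hub⟩ := hlk y hyOn hybd
      have hu' : On (Fam (k := k) π V1 P) j u := by
        intro σ hσ
        obtain ⟨⟨h1, h2, h3⟩, h4⟩ := hu σ hσ
        refine ⟨⟨h1, Finset.disjoint_of_subset_right (Finset.subset_insert _ _) h2, ?_⟩, by omega⟩
        refine h3.mono ?_
        exact_mod_cast Finset.union_subset_union_left (Finset.subset_insert _ _)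
      have hcone : On (Fam (k := k) π V0 P) (j + 1) (cone x u) := by
        intro τ hτ
        obtain ⟨σ, hσ, hxσ, rfl⟩ := mem_support_cone hτ
        obtain ⟨⟨h1, h2, h3⟩, h4⟩ := hu σ hσ
        refine ⟨⟨?_, ?_, ?_⟩, ?_⟩
        · rw [← hins]
          exact Finset.insert_subset_insert _ h1
        · rw [Finset.disjoint_insert_left]
          exact ⟨hxP, Finset.disjoint_of_subset_right (Finset.subset_insert _ _) h2⟩
        · rw [Finset.union_insert, ← Finset.insert_union]
          exact h3
        · rw [Finset.card_insert_of_notMem hxσ, h4]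
          omega
      have hsum : z + bd (cone x u) = dlt x z + u := by
        have h1 := bd_cone x u
        rw [hub] at h1
        have h3 := decomp x z
        have h4 : bd (cone x u) = u + cone x y := by
          rw [← ch_sub, eq_sub_iff_add_eq]
          exact h1
        rw [h4]
        nth_rewrite 1 [← h3]
        rw [← hy]
        have h5 : cone x y + dlt x z + (u + cone x y) = (cone x y + cone x y) + (dlt x z + u) := by
          abel
        rw [h5, ch_add_self, zero_add]
      have hz' : On (Fam (k := k) π V1 P) j (z + bd (cone x u)) := by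
        rw [hsum]
        refine On.add ?_ hu'
        intro τ hτ
        obtain ⟨h1, h2⟩ := mem_support_dlt hτ
        obtain ⟨⟨h3, h4⟩, h5⟩ := hz τ h1
        refine ⟨⟨?_, h4⟩, h5⟩
        intro v hv
        refine Finset.mem_erase.2 ⟨?_, h3 hv⟩
        rintro rfl
        exact h2 hv
      obtain ⟨w, hw, hwb⟩ := hdel _ hz' (by rw [map_add, hbd, bd_bd, add_zero])
      refine ⟨w + cone x u, On.add (On.mono (Fam_mono (Finset.erase_subset _ _)) hw) hcone, ?_⟩
      rw [map_add, hwb, add_assoc, ch_add_self, add_zero]
    · -- `x` is a coloop: cone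
      refine ⟨cone x z, ?_, ?_⟩
      · intro τ hτ
        obtain ⟨σ, hσ, hxσ, rfl⟩ := mem_support_cone hτ
        obtain ⟨⟨h1, h2, h3⟩, h4⟩ := hz σ hσ
        have hxP : x ∉ P := by
          intro h
          exact hspan (Submodule.subset_span ⟨x, by
            rw [Finset.mem_coe, Finset.mem_union]; exact Or.inr h, rfl⟩)
        have hσ1 : σ ⊆ V1 := by
          intro v hv
          refine Finset.mem_erase.2 ⟨?_, h1 hv⟩
          rintro rfl
          exact hxσ hv
        refine ⟨⟨?_, ?_, ?_⟩, ?_⟩
        · exact Finset.insert_subset hx h1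
        · rw [Finset.disjoint_insert_left]
          exact ⟨hxP, h2⟩
        · rw [Finset.union_insert, Finset.coe_insert]
          refine h3.insert ?_
          intro hmem
          apply hspan
          refine Submodule.span_mono (Set.image_mono ?_) hmem
          rw [Finset.union_comm V1 P]
          exact_mod_cast Finset.union_subset_union_right hσ1
        · rw [Finset.card_insert_of_notMem hxσ, h4]
      · have := bd_cone x z
        rw [hbd, map_zero, add_zero] at this
        exact this

/-- independent sets: vanishing below the rank -/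
theorem fills_indep [FiniteDimensional k W] (π : V → W)
    (hπ : Submodule.span k (Set.range π) = ⊤) (j : ℕ) (hj : j + 1 ≤ Module.finrank k W) :
    Fills {τ : Finset V | LinearIndepOn k π (τ : Set V)} j := by
  intro z hz hbd
  -- a finite spanning set
  obtain ⟨T, hT⟩ : ∃ T : Finset V, Submodule.span k (π '' (T : Set V)) = ⊤ := by
    have hfg : (⊤ : Submodule k W).FG := Module.Finite.fg_top
    rw [← hπ] at hfg
    obtain ⟨T', hT', hT'2⟩ := (Submodule.fg_span_iff_fg_span_finset_subset _).1 hfg
    have hch : ∀ w ∈ T', ∃ v, π v = w := fun w hw => hT' hw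
    refine ⟨T'.attach.image fun w => (hch w.1 w.2).choose, ?_⟩
    have h1 : π '' ((T'.attach.image fun w => (hch w.1 w.2).choose : Finset V) : Set V) =
        (T' : Set W) := by
      ext w
      simp only [Finset.coe_image, Set.mem_image, Finset.mem_coe, Finset.mem_attach, true_and]
      constructor
      · rintro ⟨v, ⟨u, rfl⟩, rfl⟩
        rw [(hch u.1 u.2).choose_spec]
        exact u.2
      · intro hw
        exact ⟨_, ⟨⟨w, hw⟩, rfl⟩, (hch w hw).choose_spec⟩
    rw [h1, ← hT'2, hπ]
  set V0 := (z.support.biUnion id) ∪ T with hV0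
  have hspan : Submodule.span k (π '' ((V0 ∪ ∅ : Finset V) : Set V)) = ⊤ := by
    rw [eq_top_iff, ← hT]
    refine Submodule.span_mono (Set.image_mono ?_)
    rw [Finset.union_empty]
    exact_mod_cast Finset.subset_union_right
  have hF := fills_Fam (k := k) π V0.card V0 ∅ j rfl (by
    rw [hspan, finrank_top, Finset.card_empty]
    omega)
  obtain ⟨y, hy, hyb⟩ := hF z (by
    intro σ hσ
    obtain ⟨h1, h2⟩ := hz σ hσ
    refine ⟨⟨?_, Finset.disjoint_empty_right _, ?_⟩, h2⟩
    · intro v hv
      exact Finset.mem_union_left _ (Finset.mem_biUnion.2 ⟨σ, hσ, hv⟩)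
    · rw [Finset.empty_union]
      exact h1) hbd
  refine ⟨y, ?_, hyb⟩
  intro σ hσ
  obtain ⟨⟨_, _, h3⟩, h4⟩ := hy σ hσ
  rw [Finset.empty_union] at h3
  exact ⟨h3, h4⟩

end Vale.P067.D2
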