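import Vale.Agent.Lib.P067.DDefs
import Vale.Agent.Lib.P067.Dual
import Vale.Agent.Lib.P067.D2.Matroid
import Vale.Agent.Lib.P067.D2.Lift
import Vale.Agent.Lib.P067.Dec

/-!
# P067 D2.3: exactness of the invariants of the congruence subgroup on partial bases
-/

namespace Vale.P067.D2

open scoped Classical Matrix
open Vale.P067 Polynomial

variable (k : Type*) [Field k]

/-- the ring `k[X]/X^m` -/
abbrev Qm (m : ℕ) := k[X] ⧸ Ideal.span {(X : k[X]) ^ m}

/-- reduction of vectors -/
noncomputable def redv {n : ℕ} (m : ℕ) (v : Fin n → k[X]) : Fin n → Qm k m :=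
  fun l => red k m (v l)

theorem redv_eq_iff {n m : ℕ} (v w : Fin n → k[X]) :
    redv k m v = redv k m w ↔ ∀ l, (X : k[X]) ^ m ∣ v l - w l := by
  constructor
  · intro h l
    rw [← red_eq_iff]
    exact congrFun h l
  · intro h
    funext l
    exact (red_eq_iff k m _ _).2 (h l)

/-- constant term on the quotient -/
noncomputable def ct (m : ℕ) (hm : 1 ≤ m) : Qm k m →+* k :=
  Ideal.Quotient.lift _ (constantCoeff (R := k)) (by
    intro a ha
    rw [Ideal.mem_span_singleton] at ha
    obtain ⟨b, rfl⟩ := ha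
    rw [map_mul, map_pow]
    have : (constantCoeff (R := k)) X = 0 := by
      rw [constantCoeff_apply, coeff_X_zero]
    rw [this, zero_pow (by omega), zero_mul])

theorem ct_red {m : ℕ} (hm : 1 ≤ m) (a : k[X]) : ct k m hm (red k m a) = a.coeff 0 := by
  rw [ct, Ideal.Quotient.lift_mk, constantCoeff_apply]

/-- constant terms of a vector -/
noncomputable def cv {n m : ℕ} (hm : 1 ≤ m) (w : Fin n → Qm k m) : Fin n → k :=
  fun l => ct k m hm (w l)

theorem cv_redv {n m : ℕ} (hm : 1 ≤ m) (v : Fin n → k[X]) :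
    cv k hm (redv k m v) = fun l => (v l).coeff 0 := by
  funext l
  exact ct_red k hm (v l)

theorem func_coeff {n : ℕ} (L : (Fin n → k[X]) →ₗ[k[X]] k[X]) (w : Fin n → k[X]) :
    (L w).coeff 0 = (L fun l => C ((w l).coeff 0)).coeff 0 := by
  have h1 : w = (X : k[X]) • (fun l => divX (w l)) + fun l => C ((w l).coeff 0) := by
    funext l
    simp only [Pi.add_apply, Pi.smul_apply, smul_eq_mul]
    rw [mul_comm]
    exact (divX_mul_X_add (w l)).symm
  conv_lhs => rw [h1]
  rw [map_add, map_smul, smul_eq_mul, coeff_add, mul_comm, coeff_mul_X_zero, zero_add]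

/-- the functional on constants -/
noncomputable def fc {n : ℕ} (L : (Fin n → k[X]) →ₗ[k[X]] k[X]) : (Fin n → k) →ₗ[k] k where
  toFun x := (L fun l => C (x l)).coeff 0
  map_add' := by
    intro x y
    rw [← coeff_add, ← map_add]
    congr 2
    funext l
    simp
  map_smul' := by
    intro c x
    have h : (fun l => C ((c • x) l)) = (C c : k[X]) • (fun l => (C (x l) : k[X])) := by
      funext l
      simp
    rw [h, map_smul, smul_eq_mul, coeff_C_mul]
    rfl

/-- the constant terms of a partial basis are linearly independent -/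
theorem PB_indep {n : ℕ} {σ : Finset (Fin n → k[X])} (h : PB k[X] σ) :
    LinearIndepOn k (fun v : Fin n → k[X] => fun l => (v l).coeff 0)
      (σ : Set (Fin n → k[X])) := by
  obtain ⟨f, hf⟩ := h
  rw [LinearIndepOn, linearIndependent_iff']
  intro s c hc i hi
  have h1 := congrArg (fc k (f i.1)) hc
  rw [map_sum, map_zero] at h1
  have h2 : ∀ j : (σ : Set (Fin n → k[X])), fc k (f i.1) (c j • fun l => (j.1 l).coeff 0) =
      if i = j then c j else 0 := by
    intro j
    rw [map_smul]
    have h3 : fc k (f i.1) (fun l => (j.1 l).coeff 0) = (f i.1 j.1).coeff 0 :=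
      (func_coeff k (f i.1) j.1).symm
    rw [h3, hf i.1 i.2 j.1 j.2]
    by_cases hij : i = j
    · rw [if_pos hij, if_pos (congrArg Subtype.val hij), coeff_one_zero, smul_eq_mul, mul_one]
    · rw [if_neg hij, if_neg (fun h' => hij (Subtype.ext h')), coeff_zero, smul_zero]
  rw [Finset.sum_congr rfl fun j _ => h2 j, Finset.sum_ite_eq, if_pos hi] at h1
  exact h1

theorem redv_injOn {n m : ℕ} (hm : 1 ≤ m) {σ : Finset (Fin n → k[X])} (h : PB k[X] σ) :
    Set.InjOn (redv k m) (σ : Set (Fin n → k[X])) := by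
  intro v hv w hw hvw
  have h1 := (PB_indep k h).injOn hv hw
  apply h1
  rw [← cv_redv k hm v, ← cv_redv k hm w, hvw]

theorem card_redv {n m : ℕ} (hm : 1 ≤ m) {σ : Finset (Fin n → k[X])} (h : PB k[X] σ) :
    (σ.image (redv k m)).card = σ.card :=
  Finset.card_image_of_injOn (redv_injOn k hm h)

theorem redv_indep {n m : ℕ} (hm : 1 ≤ m) {σ : Finset (Fin n → k[X])} (h : PB k[X] σ) :
    LinearIndepOn k (cv (n := n) k hm) ((σ.image (redv k m) : Finset (Fin n → Qm k m)) : Set _) := by
  have h1 := PB_indep k h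
  rw [Finset.coe_image]
  have h2 : (fun v : Fin n → k[X] => fun l => (v l).coeff 0) =
      cv k hm ∘ redv k m := by
    funext v
    exact (cv_redv k hm v).symm
  rw [h2] at h1
  exact h1.image_of_comp

/-- the image of a face -/
theorem erase_redv {n m : ℕ} (hm : 1 ≤ m) {σ : Finset (Fin n → k[X])} (h : PB k[X] σ)
    {u : Fin n → k[X]} (hu : u ∈ σ) :
    (σ.image (redv k m)).erase (redv k m u) = (σ.erase u).image (redv k m) := by
  ext w
  rw [Finset.mem_erase, Finset.mem_image, Finset.mem_image]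
  constructor
  · rintro ⟨hw, v, hv, rfl⟩
    refine ⟨v, Finset.mem_erase.2 ⟨?_, hv⟩, rfl⟩
    rintro rfl
    exact hw rfl
  · rintro ⟨v, hv, rfl⟩
    rw [Finset.mem_erase] at hv
    exact ⟨fun h' => hv.1 (redv_injOn k hm h hv.2 hu h'), v, hv.2, rfl⟩

theorem sum_redv {n m : ℕ} (hm : 1 ≤ m) {σ : Finset (Fin n → k[X])} (h : PB k[X] σ)
    (F : Finset (Fin n → Qm k m) → ZMod 2) :
    ∑ w ∈ σ.image (redv k m), F ((σ.image (redv k m)).erase w) =
      ∑ u ∈ σ, F ((σ.erase u).image (redv k m)) := by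
  rw [Finset.sum_image (fun v hv w hw hvw => redv_injOn k hm h hv hw hvw)]
  exact Finset.sum_congr rfl fun u hu => by rw [erase_redv k hm h hu]

/-- (α) for finite sets -/
theorem lift_ind {n m p : ℕ} (hm : 1 ≤ m) (hp : p < n) (τ : Finset (Fin n → Qm k m))
    (hτ : LinearIndepOn k (cv (n := n) k hm) (τ : Set (Fin n → Qm k m))) (hc : τ.card = p) :
    ∃ σ : Finset (Fin n → k[X]), PB k[X] σ ∧ σ.card = p ∧ σ.image (redv k m) = τ := by
  obtain ⟨q, rfl⟩ : ∃ q, n = p + q := ⟨n - p, by omega⟩
  let e : Fin p ≃ τ := (τ.equivFinOfCardEq hc).symm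
  have hsurj : ∀ w : Fin (p + q) → Qm k m, ∃ v : Fin (p + q) → k[X], redv k m v = w := by
    intro w
    choose v hv using fun l => Ideal.Quotient.mk_surjective (w l)
    exact ⟨v, funext hv⟩
  choose w hw using fun i => hsurj (e i).1
  have hw1 : LinearIndependent k (fun i : Fin p => fun l : Fin (p + q) => (w i l).coeff 0) := by
    have h1 : LinearIndependent k (fun x : (τ : Set (Fin (p + q) → Qm k m)) => cv k hm x.1) := hτ
    have h2 := h1.comp (fun i : Fin p => (e i : (τ : Set (Fin (p + q) → Qm k m))))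
      (fun i j hij => e.injective hij)
    have h3 : (fun i : Fin p => fun l : Fin (p + q) => (w i l).coeff 0) =
        (fun x : (τ : Set (Fin (p + q) → Qm k m)) => cv k hm x.1) ∘
          (fun i : Fin p => (e i : (τ : Set (Fin (p + q) → Qm k m)))) := by
      funext i
      rw [← cv_redv k hm, hw i]
      rfl
    rw [h3]
    exact h2
  obtain ⟨v, hv, hPB, hvw⟩ := lift_alpha k (m := m) (by omega : 0 < q) w hw1
  have hvred : ∀ i, redv k m (v i) = (e i).1 := by
    intro i
    rw [← hw i, redv_eq_iff]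
    exact hvw i
  refine ⟨Finset.univ.image v, hPB, ?_, ?_⟩
  · rw [Finset.card_image_of_injective _ hv, Finset.card_univ, Fintype.card_fin]
  · ext x
    rw [Finset.mem_image]
    constructor
    · rintro ⟨y, hy, rfl⟩
      obtain ⟨i, _, rfl⟩ := Finset.mem_image.1 hy
      rw [hvred]
      exact (e i).2
    · intro hx
      refine ⟨v (e.symm ⟨x, hx⟩), Finset.mem_image_of_mem _ (Finset.mem_univ _), ?_⟩
      rw [hvred, Equiv.apply_symm_apply]

/-- (β) for finite sets -/
theorem conj_of_redv {n m p : ℕ} (hm : 1 ≤ m) (hp : p < n) (σ σ' : Finset (Fin n → k[X]))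
    (h : PB k[X] σ) (h' : PB k[X] σ') (hc : σ.card = p)
    (hred : σ.image (redv k m) = σ'.image (redv k m)) :
    ∃ g ∈ Ncg k n m, σ.image (fun v => g • v) = σ' := by
  obtain ⟨q, rfl⟩ : ∃ q, n = p + q := ⟨n - p, by omega⟩
  have hc' : σ'.card = p := by
    rw [← card_redv k hm h', ← hred, card_redv k hm h, hc]
  let e : Fin p ≃ σ := (σ.equivFinOfCardEq hc).symm
  let v : Fin p → (Fin (p + q) → k[X]) := fun i => (e i).1
  have hvinj : Function.Injective v := fun i j hij => e.injective (Subtype.ext hij)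
  have hvim : Finset.univ.image v = σ := by
    ext x
    rw [Finset.mem_image]
    constructor
    · rintro ⟨i, _, rfl⟩
      exact (e i).2
    · intro hx
      exact ⟨e.symm ⟨x, hx⟩, Finset.mem_univ _, by simp [v]⟩
  have hex : ∀ i, ∃ y ∈ σ', redv k m y = redv k m (v i) := by
    intro i
    have h1 : redv k m (v i) ∈ σ'.image (redv k m) := by
      rw [← hred]
      exact Finset.mem_image_of_mem _ (e i).2
    obtain ⟨y, hy, hyv⟩ := Finset.mem_image.1 h1
    exact ⟨y, hy, hyv⟩
  choose v' hv'mem hv'red using hex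
  have hv'inj : Function.Injective v' := by
    intro i j hij
    have h1 : redv k m (v i) = redv k m (v j) := by
      rw [← hv'red i, ← hv'red j, hij]
    exact hvinj (redv_injOn k hm h (e i).2 (e j).2 h1)
  have hv'im : Finset.univ.image v' = σ' := by
    apply Finset.eq_of_subset_of_card_le
    · intro x hx
      obtain ⟨i, _, rfl⟩ := Finset.mem_image.1 hx
      exact hv'mem i
    · rw [Finset.card_image_of_injective _ hv'inj, Finset.card_univ, Fintype.card_fin, hc']
  obtain ⟨g, hg1, hg2⟩ := lift_beta k (m := m) (by omega : 0 < q) v v' hvinj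
    (by rw [hvim]; exact h) hv'inj (by rw [hv'im]; exact h') (by
      intro i
      rw [← redv_eq_iff]
      exact (hv'red i).symm)
  refine ⟨g, fun i j => hg1 i j, ?_⟩
  rw [← hvim, ← hv'im, Finset.image_image]
  refine Finset.image_congr ?_
  intro i _
  exact hg2 i

theorem redv_smul {n m : ℕ} {g : SLk k n} (hg : g ∈ Ncg k n m) (v : Fin n → k[X]) :
    redv k m (g • v) = redv k m v := by
  rw [redv_eq_iff]
  intro l
  rw [SLk_smul_def]
  have h1 : ((g : Matrix (Fin n) (Fin n) k[X]).mulVec v) l - v l =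
      ∑ j, ((g : Matrix (Fin n) (Fin n) k[X]) l j - (1 : Matrix (Fin n) (Fin n) k[X]) l j) * v j := by
    simp only [sub_mul, Finset.sum_sub_distrib]
    have h2 : ∑ j, (1 : Matrix (Fin n) (Fin n) k[X]) l j * v j = v l := by
      have := congrFun (Matrix.one_mulVec v) l
      rw [Matrix.mulVec, dotProduct] at this
      exact this
    rw [h2, Matrix.mulVec, dotProduct]
  rw [h1]
  exact Finset.dvd_sum fun j _ => Dvd.dvd.mul_right (hg l j) _

theorem cv_span {n m : ℕ} (hm : 1 ≤ m) :
    Submodule.span k (Set.range (cv (n := n) k hm)) = ⊤ := by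
  have h : Set.range (cv (n := n) k hm) = Set.univ := by
    rw [Set.range_eq_univ]
    intro x
    refine ⟨redv k m fun l => C (x l), ?_⟩
    rw [cv_redv]
    funext l
    rw [coeff_C_zero]
  rw [h, Submodule.span_univ]

/-- D2.3 -/
theorem hvy {n m q : ℕ} (hm : 1 ≤ m) (hq : q + 2 ≤ n) (f : Finset (Fin n → k[X]) → ZMod 2)
    (hf : ∀ g ∈ Ncg k n m, ∀ σ ∈ PBs k n, f (σ.image (fun v => g • v)) = f σ)
    (hd : ∀ τ ∈ PBs k n, τ.card = q + 1 → ∑ v ∈ τ, f (τ.erase v) = 0) :
    ∃ b : Finset (Fin n → k[X]) → ZMod 2,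
      (∀ g ∈ Ncg k n m, ∀ σ ∈ PBs k n, b (σ.image (fun v => g • v)) = b σ) ∧
      ∀ σ ∈ PBs k n, σ.card = q → f σ = ∑ v ∈ σ, b (σ.erase v) := by
  let fb : Finset (Fin n → Qm k m) → ZMod 2 := fun τ =>
    if h : ∃ σ : Finset (Fin n → k[X]), PB k[X] σ ∧ σ.image (redv k m) = τ then f h.choose else 0
  have hfb : ∀ σ : Finset (Fin n → k[X]), PB k[X] σ → σ.card < n →
      fb (σ.image (redv k m)) = f σ := by
    intro σ hσ hc
    have hex : ∃ σ' : Finset (Fin n → k[X]), PB k[X] σ' ∧
        σ'.image (redv k m) = σ.image (redv k m) := ⟨σ, hσ, rfl⟩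
    have h1 : fb (σ.image (redv k m)) = f hex.choose := dif_pos hex
    rw [h1]
    obtain ⟨h2, h3⟩ := hex.choose_spec
    obtain ⟨g, hg, hgs⟩ := conj_of_redv k hm hc σ hex.choose hσ h2 rfl h3.symm
    rw [← hgs]
    exact hf g hg σ hσ
  have hfill := fills_indep (k := k) (cv (n := n) k hm) (cv_span k hm) q (by
    rw [Module.finrank_fin_fun]
    omega)
  obtain ⟨gb, hgb⟩ := dual_fills hfill fb (by
    intro τ hτ hτc
    obtain ⟨σ, hσ, hσc, rfl⟩ := lift_ind k hm (by omega : q + 1 < n) τ hτ hτc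
    have hsum : ∑ v ∈ σ.image (redv k m), fb ((σ.image (redv k m)).erase v) = 0 := by
      rw [sum_redv k hm hσ, ← hd σ hσ hσc]
      refine Finset.sum_congr rfl fun u hu => ?_
      refine hfb _ (hσ.mono (Finset.erase_subset _ _)) ?_
      rw [Finset.card_erase_of_mem hu]
      omega
    refine Eq.trans (Finset.sum_congr (dec_image _ _ _ _) fun v _ => ?_) hsum
    exact congrArg fb ((dec_erase _ _ _ _).trans
      (congrArg (fun t => Finset.erase t v) (dec_image _ _ _ _))))
  refine ⟨fun σ => gb (σ.image (redv k m)), ?_, ?_⟩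
  · intro g hg σ _
    beta_reduce
    rw [Finset.image_image]
    congr 1
    refine Finset.image_congr ?_
    intro v _
    exact redv_smul k hg v
  · intro σ hσ hc
    have h1 := hgb _ (redv_indep k hm hσ) (by rw [card_redv k hm hσ, hc])
    rw [hfb σ hσ (by omega)] at h1
    rw [h1]
    have h2 := sum_redv k hm hσ gb
    refine Eq.trans ?_ h2
    refine Finset.sum_congr (dec_image _ _ _ _) fun v _ => ?_
    exact congrArg gb ((dec_erase _ _ _ _).trans
      (congrArg (fun t => Finset.erase t v) (dec_image _ _ _ _)))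

end Vale.P067.D2
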