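import Mathlib
import Vale.Agent.Lib.P067.DDefs

/-!
# P067, part D2.5: the index of the congruence subgroup in `Umat` is finite and odd
-/

namespace Vale.P067.D2

open scoped Classical
open Polynomial

variable (k : Type*) [Field k] (n : ℕ)

/-- powers of a matrix which is strictly lower triangular modulo `X` -/
private theorem odd_tri {A : Matrix (Fin n) (Fin n) k[X]}
    (hA : ∀ i j : Fin n, i ≤ j → (X : k[X]) ∣ A i j) (t : ℕ) :
    ∀ i j : Fin n, (i : ℕ) < j + t → (X : k[X]) ∣ (A ^ t) i j := by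
  induction t with
  | zero =>
    intro i j hij
    have hne : i ≠ j := by
      rintro rfl
      omega
    rw [pow_zero, Matrix.one_apply_ne hne]
    exact dvd_zero _
  | succ t ih =>
    intro i j hij
    rw [pow_succ, Matrix.mul_apply]
    refine Finset.dvd_sum fun l _ => ?_
    rcases lt_or_ge (i : ℕ) (l + t) with h | h
    · exact Dvd.dvd.mul_right (ih i l h) _
    · refine Dvd.dvd.mul_left (hA l j ?_) _
      rw [Fin.le_def]
      omega

private theorem odd_pow {A : Matrix (Fin n) (Fin n) k[X]}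
    (hA : ∀ i j : Fin n, i ≤ j → (X : k[X]) ∣ A i j) (m t : ℕ) (ht : n * m ≤ t) :
    ∀ i j : Fin n, (X : k[X]) ^ m ∣ (A ^ t) i j := by
  have h1 : ∀ i j : Fin n, (X : k[X]) ∣ (A ^ n) i j := fun i j =>
    odd_tri k n hA n i j (by omega)
  choose B hB using h1
  have h2 : A ^ n = (X : k[X]) • Matrix.of B := by
    ext1 i j
    rw [Matrix.smul_apply, Matrix.of_apply, smul_eq_mul]
    exact hB i j
  intro i j
  obtain ⟨s, rfl⟩ := Nat.exists_eq_add_of_le ht
  rw [pow_add, pow_mul, h2, _root_.smul_pow, Matrix.smul_mul, Matrix.smul_apply, smul_eq_mul]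
  exact dvd_mul_right _ _

private theorem odd_pgrp (p : ℕ) [Fact p.Prime] [CharP k p] {m : ℕ}
    (g : SLk k n) (hg : LowU g) : ∃ s : ℕ, g ^ p ^ s ∈ Ncg k n m := by
  obtain ⟨s, hs⟩ : ∃ s : ℕ, n * m ≤ p ^ s :=
    ⟨n * m, (Nat.lt_pow_self (Fact.out : p.Prime).one_lt).le⟩
  refine ⟨s, fun i j => ?_⟩
  set A : Matrix (Fin n) (Fin n) k[X] := (g : Matrix (Fin n) (Fin n) k[X]) - 1 with hAdef
  have hg1 : (g : Matrix (Fin n) (Fin n) k[X]) = 1 + A := by
    rw [hAdef]; abel
  have hA : ∀ i j : Fin n, i ≤ j → (X : k[X]) ∣ A i j := by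
    intro i j hij
    exact hg i j hij
  rcases Nat.eq_zero_or_pos n with hn | hn
  · subst hn
    exact i.elim0
  have : Nonempty (Fin n) := ⟨⟨0, hn⟩⟩
  have h3 : ((g ^ p ^ s : SLk k n) : Matrix (Fin n) (Fin n) k[X]) = 1 + A ^ p ^ s := by
    rw [Matrix.SpecialLinearGroup.coe_pow, hg1,
      add_pow_char_pow_of_commute p _ (Commute.one_left A), one_pow]
  rw [h3, Matrix.add_apply, add_sub_cancel_left]
  exact odd_pow k n hA m _ hs i j

private theorem odd_fin [Finite k] (m : ℕ) :
    Finite (Umat k n ⧸ (Ncg k n m).subgroupOf (Umat k n)) := by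
  have := Fintype.ofFinite k
  let Φ : (Umat k n ⧸ (Ncg k n m).subgroupOf (Umat k n)) → (Fin n → Fin n → Fin m → k) :=
    fun q i j l => (((Quotient.out q : Umat k n) : SLk k n) : Matrix (Fin n) (Fin n) k[X]) i j
      |>.coeff l
  refine Finite.of_injective Φ fun q q' h => ?_
  have h1 : (QuotientGroup.mk (Quotient.out q) :
      Umat k n ⧸ (Ncg k n m).subgroupOf (Umat k n)) = QuotientGroup.mk (Quotient.out q') := by
    rw [QuotientGroup.eq, Subgroup.mem_subgroupOf]
    set a : SLk k n := ((Quotient.out q : Umat k n) : SLk k n) with ha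
    set b : SLk k n := ((Quotient.out q' : Umat k n) : SLk k n) with hb
    have h2 : ∀ i j, (X : k[X]) ^ m ∣ (b : Matrix (Fin n) (Fin n) k[X]) i j -
        (a : Matrix (Fin n) (Fin n) k[X]) i j := by
      intro i j
      rw [Polynomial.X_pow_dvd_iff]
      intro l hl
      have h3 := congrFun (congrFun (congrFun h i) j) ⟨l, hl⟩
      rw [coeff_sub, sub_eq_zero]
      exact h3.symm
    change a⁻¹ * b ∈ Ncg k n m
    intro i j
    have h4 : ((a⁻¹ * b : SLk k n) : Matrix (Fin n) (Fin n) k[X]) i j -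
        (1 : Matrix (Fin n) (Fin n) k[X]) i j =
        ∑ l, ((a⁻¹ : SLk k n) : Matrix (Fin n) (Fin n) k[X]) i l *
          ((b : Matrix (Fin n) (Fin n) k[X]) l j - (a : Matrix (Fin n) (Fin n) k[X]) l j) := by
      simp only [mul_sub, Finset.sum_sub_distrib]
      rw [← Matrix.mul_apply, ← Matrix.mul_apply, ← Matrix.SpecialLinearGroup.coe_mul,
        ← Matrix.SpecialLinearGroup.coe_mul, inv_mul_cancel, Matrix.SpecialLinearGroup.coe_one]
    rw [h4]
    exact Finset.dvd_sum fun l _ => Dvd.dvd.mul_left (h2 l j) _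
  have h5 : (QuotientGroup.mk (Quotient.out q) :
      Umat k n ⧸ (Ncg k n m).subgroupOf (Umat k n)) = q := Quotient.out_eq q
  have h6 : (QuotientGroup.mk (Quotient.out q') :
      Umat k n ⧸ (Ncg k n m).subgroupOf (Umat k n)) = q' := Quotient.out_eq q'
  rw [← h5, ← h6, h1]

theorem index_odd_aux [Finite k] (hk : Odd (Nat.card k)) {m : ℕ} :
    Odd ((Ncg k n m).subgroupOf (Umat k n)).index := by
  have := Fintype.ofFinite k
  obtain ⟨p, hp⟩ := CharP.exists k
  have hp1 : p.Prime := by
    rcases CharP.char_is_prime_or_zero k p with h | h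
    · exact h
    · subst h
      have := CharP.charP_to_charZero k
      exact absurd (inferInstance : Infinite k) (not_infinite_iff_finite.2 inferInstance)
  have : Fact p.Prime := ⟨hp1⟩
  have hpo : Odd p := by
    obtain ⟨e, -, he⟩ := FiniteField.card k p
    rw [Nat.card_eq_fintype_card, he] at hk
    by_contra h
    rw [Nat.not_odd_iff_even] at h
    exact (Nat.not_odd_iff_even.2 ((Nat.even_pow' e.ne_zero).2 h)) hk
  have := odd_fin k n m
  have hpg : IsPGroup p (Umat k n ⧸ (Ncg k n m).subgroupOf (Umat k n)) := by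
    intro g
    induction g using QuotientGroup.induction_on with
    | H g =>
      obtain ⟨s, hs⟩ := odd_pgrp k n p (m := m) (g : SLk k n) g.2.1
      refine ⟨s, ?_⟩
      rw [← QuotientGroup.mk_pow, QuotientGroup.eq_one_iff, Subgroup.mem_subgroupOf]
      exact hs
  obtain ⟨t, ht⟩ := IsPGroup.iff_card.1 hpg
  rw [Subgroup.index, ht]
  exact hpo.pow

end Vale.P067.D2
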