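import Mathlib
import Vale.Agent.Lib.P067.DDefs

/-!
# P067, part D2: setwise stabilizers in the congruence subgroup are pointwise stabilizers
-/

namespace Vale.P067.D2

open scoped Classical
open Polynomial

variable (k : Type*) [Field k] (n : ℕ)

/-- an element of the congruence subgroup moves a vector by a multiple of `X` -/
theorem ncg_smul_sub {m : ℕ} (hm : 1 ≤ m) (g : SLk k n) (hg : g ∈ Ncg k n m)
    (v : Fin n → k[X]) : ∃ w : Fin n → k[X], g • v = v + (X : k[X]) • w := by
  have h : ∀ i, (X : k[X]) ∣ (g • v) i - v i := by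
    intro i
    have h1 : (g • v) i - v i = ∑ j, ((g : Matrix (Fin n) (Fin n) k[X]) i j -
        (1 : Matrix (Fin n) (Fin n) k[X]) i j) * v j := by
      rw [SLk_smul_def]
      simp only [sub_mul, Finset.sum_sub_distrib]
      have h2 : ∑ j, (1 : Matrix (Fin n) (Fin n) k[X]) i j * v j = v i := by
        have := congrFun (Matrix.one_mulVec v) i
        rw [Matrix.mulVec, dotProduct] at this
        exact this
      rw [h2]
      rfl
    rw [h1]
    exact Finset.dvd_sum fun j _ => Dvd.dvd.mul_right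
      ((dvd_pow_self (X : k[X]) (by omega : m ≠ 0)).trans (hg i j)) _
  choose w hw using h
  refine ⟨w, funext fun i => ?_⟩
  rw [Pi.add_apply, Pi.smul_apply, smul_eq_mul, ← hw i]
  ring

theorem pb_stab_aux {m : ℕ} (hm : 1 ≤ m) (g : SLk k n) (hg : g ∈ Ncg k n m)
    (σ : Finset (Fin n → k[X])) (hσ : σ ∈ PBs k n) (h : σ.image (fun v => g • v) = σ) :
    ∀ v ∈ σ, g • v = v := by
  intro v hv
  obtain ⟨f, hf⟩ := hσ
  by_contra hne
  have hgv : g • v ∈ σ := by
    rw [← h]
    exact Finset.mem_image_of_mem _ hv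
  have h1 := hf v hv v hv
  rw [if_pos rfl] at h1
  have h2 := hf v hv (g • v) hgv
  rw [if_neg (fun h3 => hne h3.symm)] at h2
  obtain ⟨w, hw⟩ := ncg_smul_sub k n hm g hg v
  rw [hw, map_add, map_smul, h1, smul_eq_mul] at h2
  have h3 := congrArg (Polynomial.coeff · 0) h2
  simp at h3

end Vale.P067.D2
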