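import Mathlib
import Vale.Agent.Lib.P067.DDefs
import Vale.Agent.Lib.P067.D1.CxSys
import Vale.Agent.Lib.P067.D2.Hvy
import Vale.Agent.Lib.P067.D2.Odd
import Vale.Agent.Lib.P067.D2.Stab
import Vale.Agent.Lib.P067.Dec

/-!
# P067, part D2: output for D1 (interface file)

Everything about partial bases which D1 uses.
-/

namespace Vale.P067

open scoped Classical
open Polynomial

variable (k : Type*) [Field k] (n : ℕ)

theorem PB_erase_classical {V : Type*} [AddCommGroup V] [Module k[X] V] {σ : Finset V}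
    (hσ : D2.PB k[X] σ) (v : V) : D2.PB k[X] (σ.erase v) :=
  D2.PB.mono (Finset.erase_subset v σ) hσ

theorem smul_PB (g : SLk k n) {σ : Finset (Fin n → k[X])} (hσ : D2.PB k[X] σ) :
    D2.PB k[X] (σ.image fun v => g • v) := by
  have h := D2.PB.map hσ (DistribMulAction.toLinearEquiv k[X] (Fin n → k[X]) g)
  refine Eq.mpr (congrArg (fun t => D2.PB k[X] t) ?_) h
  exact dec_image _ _ _ _

/-- the complex of partial bases of `k[X]^n` with the action of `SL_n(k[X])` -/
noncomputable def pbCx : Cx (SLk k n) (Fin n → k[X]) where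
  K := PBs k n
  empty_mem := by
    change D2.PB k[X] (∅ : Finset (Fin n → k[X]))
    exact D2.PB_empty
  erase_mem := by
    intro σ hσ v _
    exact PB_erase_classical k hσ v
  smul_mem := by
    intro g σ hσ
    have h := smul_PB k n g hσ
    change D2.PB k[X] _
    exact Eq.mpr (congrArg (fun t => D2.PB k[X] t) (dec_image _ _ _ _)) h

/-- the first `p` standard basis vectors -/
noncomputable def stdF (p : ℕ) : Finset (Fin n → k[X]) :=
  (Finset.univ.filter fun i : Fin n => (i : ℕ) < p).image fun i => Pi.single i 1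

/-- Maazen (D2.2): exactness of the complex of partial bases at `p ≤ n - 1` vertices
(`fills_PB`, `dual_fills`, `Cx.ex_of` with `P = ⊥`) -/
theorem pb_ex {p : ℕ} (hp : p + 1 ≤ n) : (pbCx k n).sys.Ex ⊥ p := by
  refine Cx.ex_of _ _ _ fun f _ hd => ?_
  have hfill := D2.fills_PB (R := k[X]) (M := Fin n → k[X])
    (fun a => if a = 0 then 0 else a.natDegree + 1) (if_pos rfl) (by
      intro a b hb
      refine ⟨a / b, ?_⟩
      have h1 : a - a / b * b = a % b := by
        have := EuclideanDomain.div_add_mod a b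
        rw [mul_comm]
        exact sub_eq_iff_eq_add'.2 this.symm
      rw [h1, if_neg hb]
      by_cases h2 : a % b = 0
      · rw [if_pos h2]
        omega
      · rw [if_neg h2]
        have h3 := Polynomial.natDegree_lt_natDegree h2 (EuclideanDomain.mod_lt a hb)
        omega) p (by rw [Module.finrank_fin_fun]; exact hp)
  obtain ⟨g, hg⟩ := dual_fills hfill f (by
    intro τ hτ hc
    have h1 := hd τ hτ hc
    exact h1)
  refine ⟨g, ?_, ?_⟩
  · intro h hh σ _
    rw [Subgroup.mem_bot] at hh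
    subst hh
    congr 1
    simp
  · intro σ hσ hc
    exact hg σ hσ hc

/-- D2.3: exactness of the invariants of the congruence subgroup at `1 ≤ p ≤ n - 2` vertices -/
theorem pb_ex_N {m p : ℕ} (hm : 1 ≤ m) (hp1 : 1 ≤ p) (hp : p + 2 ≤ n) :
    (pbCx k n).sys.Ex (Ncg k n m) p := by
  refine Cx.ex_of _ _ _ fun f hf hd => ?_
  obtain ⟨b, hb1, hb2⟩ := D2.hvy k hm hp f
    (by
      intro g hg σ hσ
      refine Eq.trans ?_ (hf g hg σ hσ)
      exact congrArg f (dec_image _ _ _ _))
    (by
      intro τ hτ hc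
      refine Eq.trans ?_ (hd τ hτ hc)
      exact Finset.sum_congr rfl fun v _ => congrArg f (dec_erase _ _ _ _))
  refine ⟨b, ?_, ?_⟩
  · intro g hg σ hσ
    refine Eq.trans ?_ (hb1 g hg σ hσ)
    exact congrArg b (dec_image _ _ _ _)
  · intro σ hσ hc
    refine Eq.trans (hb2 σ hσ hc) ?_
    exact Finset.sum_congr rfl fun v _ => congrArg b (dec_erase _ _ _ _)

/-- there is a partial basis with one element, if `n ≥ 1` -/
theorem pb_one (hn : 1 ≤ n) : ∃ y : (pbCx k n).Cell, (pbCx k n).sys.deg y = 1 := by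
  have h : D2.PB k[X] ({Pi.single (⟨0, hn⟩ : Fin n) 1} : Finset (Fin n → k[X])) := by
    refine D2.PB_of_basis (Pi.basisFun k[X] (Fin n)) _ ?_
    intro v hv
    rw [Finset.mem_singleton] at hv
    subst hv
    exact ⟨⟨0, hn⟩, Pi.basisFun_apply _ _ _⟩
  exact ⟨⟨({Pi.single (⟨0, hn⟩ : Fin n) 1} : Finset (Fin n → k[X])), h⟩,
    Finset.card_singleton (Pi.single (⟨0, hn⟩ : Fin n) (1 : k[X]))⟩

/-- transitivity (D2.1 (v)): a partial basis with `p < n` elements is the image of the first `p`
standard vectors -/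
theorem pb_trans {p : ℕ} (hp : p < n) (σ : Finset (Fin n → k[X])) (hσ : σ ∈ PBs k n)
    (hc : σ.card = p) : ∃ g : SLk k n, σ = (stdF k n p).image (fun v => g • v) := by
  let e : Fin p ≃ σ := (σ.equivFinOfCardEq hc).symm
  let v : Fin p → (Fin n → k[X]) := fun i => (e i).1
  have hvinj : Function.Injective v := fun i j hij => e.injective (Subtype.ext hij)
  have hvim : Finset.univ.image v = σ := by
    ext x
    rw [Finset.mem_image]
    constructor
    · rintro ⟨i, _, rfl⟩
      exact (e i).2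
    · intro hx
      exact ⟨e.symm ⟨x, hx⟩, Finset.mem_univ _, by simp [v]⟩
  have hPB : D2.PB k[X] (Finset.univ.image v) := by
    rw [hvim]
    exact hσ
  obtain ⟨g, hg⟩ := D2.exists_SL (R := k[X]) hp (Fin.castLEEmb hp.le) v hvinj
    (Eq.mpr (congrArg (fun t => D2.PB k[X] t) (dec_image _ _ _ _)) hPB)
  refine ⟨g, ?_⟩
  ext x
  rw [← hvim, Finset.mem_image, Finset.mem_image]
  constructor
  · rintro ⟨i, _, rfl⟩
    refine ⟨Pi.single (Fin.castLE hp.le i) 1, ?_, hg i⟩
    refine Finset.mem_image_of_mem _ (Finset.mem_filter.2 ⟨Finset.mem_univ _, ?_⟩)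
    exact i.2
  · rintro ⟨y, hy, rfl⟩
    obtain ⟨j, hj, rfl⟩ := Finset.mem_image.1 hy
    rw [Finset.mem_filter] at hj
    refine ⟨⟨j, hj.2⟩, Finset.mem_univ _, ?_⟩
    exact (hg ⟨j, hj.2⟩).symm

/-- the same for one vector and an arbitrary index -/
theorem pb_trans_one (hn : 2 ≤ n) (l : Fin n) (σ : Finset (Fin n → k[X])) (hσ : σ ∈ PBs k n)
    (hc : σ.card = 1) : ∃ g : SLk k n, σ = {g • (Pi.single l 1 : Fin n → k[X])} := by
  obtain ⟨x, rfl⟩ := Finset.card_eq_one.1 hc
  have hPB : D2.PB k[X] (Finset.univ.image (fun _ : Fin 1 => x)) := by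
    have h1 : Finset.univ.image (fun _ : Fin 1 => x) = {x} := by
      ext y
      simp [eq_comm]
    rw [h1]
    exact hσ
  obtain ⟨g, hg⟩ := D2.exists_SL (R := k[X]) (by omega : 1 < n)
    ⟨fun _ : Fin 1 => l, fun _ _ _ => Subsingleton.elim _ _⟩ (fun _ => x)
    (fun _ _ _ => Subsingleton.elim _ _)
    (Eq.mpr (congrArg (fun t => D2.PB k[X] t) (dec_image _ _ _ _)) hPB)
  refine ⟨g, ?_⟩
  have h2 : g • (Pi.single l 1 : Fin n → k[X]) = x := hg 0
  rw [h2]

/-- setwise stabilizers in the congruence subgroup are pointwise stabilizers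
(the reductions mod `X` of the elements of `σ` are linearly independent, hence distinct) -/
theorem pb_stab {m : ℕ} (hm : 1 ≤ m) (g : SLk k n) (hg : g ∈ Ncg k n m)
    (σ : Finset (Fin n → k[X])) (hσ : σ ∈ PBs k n) (h : σ.image (fun v => g • v) = σ) :
    ∀ v ∈ σ, g • v = v := D2.pb_stab_aux k n hm g hg σ hσ h

/-- D2.5: the index of the congruence subgroup in `Umat` is finite and odd -/
theorem index_odd [Finite k] (hk : Odd (Nat.card k)) {m : ℕ} (hm : 1 ≤ m) :
    Odd ((Ncg k n m).subgroupOf (Umat k n)).index := D2.index_odd_aux k n hk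

end Vale.P067
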