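import Mathlib

/-!
# P067 D2.G: `SL_n(k[X])` is generated by the transvections `e_{l j}(r)`, `e_{j l}(r)` (`l` fixed)

Proof.  Let `G` be the closure of these transvections.
(1) `G` contains all `tv i j h r`: for `i, j ≠ l`, `i ≠ j`: `e_{ij}(r) = [e_{il}(r), e_{lj}(1)]`
    (`Matrix.transvection`, compute with `Matrix.transvection_mul...` or entrywise; if `i = l` or
    `j = l` it is a generator).
(2) Euclid: for every `g ∈ SL_n(k[X])` there is a product `t` of elementary transvections with
    `t * g = 1`.  Induction: call `T` the subgroup generated by ALL transvections.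
    Strong induction on the least degree of a nonzero entry of column `c` (among the rows not yet
    used): subtracting multiples (`Polynomial` division with remainder, `EuclideanDomain`) of the row
    with the smallest nonzero entry from the others, the column becomes `(0,…,0,u,0,…)` with `u` a
    gcd.  Convenient formulation: statement `S(s)` for finsets `s ⊆ Fin n` (rows and columns which are done):
    if `A` is a matrix with `det A = 1` and `A i j = 1 i j` whenever `i ∈ s` or `j ∈ s`, then
    `A ∈ ` (products of transvections).  If `sᶜ` has at most one element, `A = 1` (the determinant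
    is the last diagonal entry).  Otherwise pick `c ∉ s`.  The column `(A i c)_{i ∉ s}` generates the
    unit ideal (expand `det A = 1`; or: if `d` divides all `A i c`, `i ∉ s`, then `d ∣ det A`).
    By the Euclidean algorithm with row operations among rows `∉ s` get a column with exactly one
    nonzero entry, a unit, which (using another row `≠ c`, `|sᶜ| ≥ 2`) can be moved to `A c c = 1`
    and all other `A i c = 0`; then clear row `c` by column operations (adding multiples of column
    `c`).  The new matrix satisfies the hypothesis for `insert c s`.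
An alternative: prove it through `Matrix.Pivot` style lists of transvections
(`Matrix.TransvectionStruct`).  Any proof is fine.
-/

namespace Vale.P067.D2

open scoped Classical
open Polynomial

/-- transvection in `SL_n` -/
def tv {R : Type*} [CommRing R] {n : ℕ} (i j : Fin n) (h : i ≠ j) (r : R) :
    Matrix.SpecialLinearGroup (Fin n) R :=
  ⟨Matrix.transvection i j r, Matrix.det_transvection_of_ne i j h r⟩

private theorem tv_mulVec {R : Type*} [CommRing R] {n : ℕ} (i j : Fin n) (h : i ≠ j) (r : R)
    (x : Fin n → R) :
    (tv i j h r : Matrix (Fin n) (Fin n) R).mulVec x = Function.update x i (x i + r * x j) := by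
  funext l
  change (Matrix.transvection i j r).mulVec x l = _
  unfold Matrix.transvection
  rw [Matrix.add_mulVec, Matrix.one_mulVec, Pi.add_apply]
  by_cases hl : l = i
  · subst hl
    rw [Function.update_self]
    congr 1
    rw [Matrix.mulVec, dotProduct]
    rw [Finset.sum_eq_single j]
    · simp
    · intro b _ hb
      rw [Matrix.single_apply_of_ne]
      · rw [zero_mul]
      · rintro ⟨_, h2⟩
        exact hb h2.symm
    · simp
  · rw [Function.update_of_ne hl]
    have : (Matrix.single i j r).mulVec x l = 0 := by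
      rw [Matrix.mulVec, dotProduct]
      refine Finset.sum_eq_zero fun b _ => ?_
      rw [Matrix.single_apply_of_ne]
      · rw [zero_mul]
      · rintro ⟨h1, _⟩
        exact hl h1.symm
    rw [this, add_zero]

/-- the commutator relation -/
private theorem tv_comm {R : Type*} [CommRing R] {n : ℕ} (i j l : Fin n) (hij : i ≠ j)
    (hil : i ≠ l) (hlj : l ≠ j) (r : R) :
    tv i j hij r = tv i l hil r * tv l j hlj 1 * tv i l hil (-r) * tv l j hlj (-1) := by
  apply Subtype.ext
  change Matrix.transvection i j r = Matrix.transvection i l r * Matrix.transvection l j 1 *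
    Matrix.transvection i l (-r) * Matrix.transvection l j (-1)
  have key : ∀ x : Fin n → R, (Matrix.transvection i j r).mulVec x =
      (Matrix.transvection i l r * Matrix.transvection l j 1 *
        Matrix.transvection i l (-r) * Matrix.transvection l j (-1)).mulVec x := by
    intro x
    rw [← Matrix.mulVec_mulVec, ← Matrix.mulVec_mulVec, ← Matrix.mulVec_mulVec]
    have e1 := tv_mulVec l j hlj (-1) x
    have e2 := tv_mulVec i l hil (-r) (Function.update x l (x l + -1 * x j))
    have e3 := tv_mulVec l j hlj 1 (Function.update (Function.update x l (x l + -1 * x j)) i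
      ((Function.update x l (x l + -1 * x j)) i + -r * (Function.update x l (x l + -1 * x j)) l))
    have e0 := tv_mulVec i j hij r x
    change (Matrix.transvection l j (-1)).mulVec _ = _ at e1
    change (Matrix.transvection i l (-r)).mulVec _ = _ at e2
    change (Matrix.transvection l j 1).mulVec _ = _ at e3
    change (Matrix.transvection i j r).mulVec _ = _ at e0
    rw [e1, e2, e3, e0]
    have e4 := tv_mulVec i l hil r (Function.update (Function.update (Function.update x l (x l + -1 * x j)) i
      ((Function.update x l (x l + -1 * x j)) i + -r * (Function.update x l (x l + -1 * x j)) l)) l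
      ((Function.update (Function.update x l (x l + -1 * x j)) i
      ((Function.update x l (x l + -1 * x j)) i + -r * (Function.update x l (x l + -1 * x j)) l)) l + 1 *
      (Function.update (Function.update x l (x l + -1 * x j)) i
      ((Function.update x l (x l + -1 * x j)) i + -r * (Function.update x l (x l + -1 * x j)) l)) j))
    change (Matrix.transvection i l r).mulVec _ = _ at e4
    rw [e4]
    funext a
    by_cases hai : a = i
    · subst hai
      simp only [Function.update_self, Function.update_of_ne hil, Function.update_of_ne hij.symm,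
        Function.update_of_ne hlj.symm, Function.update_of_ne hil.symm]
      ring
    · by_cases hal : a = l
      · subst hal
        simp only [Function.update_self, Function.update_of_ne hil, Function.update_of_ne hij.symm,
          Function.update_of_ne hlj.symm, Function.update_of_ne hil.symm]
        ring
      · simp only [Function.update_of_ne hai, Function.update_of_ne hal]
  exact Matrix.ext_of_mulVec_single fun a => key _

section rel

variable {R : Type*} [CommRing R] {n : ℕ}

/-- `y` is obtained from `x` by an element of `G` fixing the `e_j`, `j ∈ s` -/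
private def Rel (G : Subgroup (Matrix.SpecialLinearGroup (Fin n) R)) (s : Finset (Fin n))
    (x y : Fin n → R) : Prop :=
  ∃ t ∈ G, (∀ j ∈ s, (t : Matrix (Fin n) (Fin n) R).mulVec (Pi.single j 1) = Pi.single j 1) ∧
    (t : Matrix (Fin n) (Fin n) R).mulVec x = y

variable {G : Subgroup (Matrix.SpecialLinearGroup (Fin n) R)} {s : Finset (Fin n)}

private theorem Rel.refl (x : Fin n → R) : Rel G s x x := by
  refine ⟨1, G.one_mem, fun j _ => ?_, ?_⟩
  · rw [Matrix.SpecialLinearGroup.coe_one, Matrix.one_mulVec]
  · rw [Matrix.SpecialLinearGroup.coe_one, Matrix.one_mulVec]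

private theorem Rel.trans {x y z : Fin n → R} (h : Rel G s x y) (h' : Rel G s y z) :
    Rel G s x z := by
  obtain ⟨t, ht, h1, h2⟩ := h
  obtain ⟨u, hu, h3, h4⟩ := h'
  refine ⟨u * t, G.mul_mem hu ht, fun j hj => ?_, ?_⟩
  · rw [Matrix.SpecialLinearGroup.coe_mul, ← Matrix.mulVec_mulVec, h1 j hj, h3 j hj]
  · rw [Matrix.SpecialLinearGroup.coe_mul, ← Matrix.mulVec_mulVec, h2, h4]

private theorem Rel.step (hG : ∀ (i j : Fin n) (h : i ≠ j) (r : R), tv i j h r ∈ G)
    {i j : Fin n} (h : i ≠ j) (hj : j ∉ s) (r : R) (x : Fin n → R) :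
    Rel G s x (Function.update x i (x i + r * x j)) := by
  refine ⟨tv i j h r, hG i j h r, fun l hl => ?_, tv_mulVec i j h r x⟩
  have hlj : j ≠ l := fun e => hj (e ▸ hl)
  rw [tv_mulVec, Pi.single_eq_of_ne hlj, mul_zero, add_zero, Function.update_eq_self]

/-- unimodular outside `s` -/
private def Unim (s : Finset (Fin n)) (x : Fin n → R) : Prop :=
  ∃ f : Fin n → R, (∀ j ∈ s, f j = 0) ∧ dotProduct f x = 1

private theorem Rel.unim {x y : Fin n → R} (h : Rel G s x y) (hx : Unim s x) : Unim s y := by
  obtain ⟨t, _, h1, h2⟩ := h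
  obtain ⟨f, hf, hfx⟩ := hx
  have hinv : ((t⁻¹ : Matrix.SpecialLinearGroup (Fin n) R) : Matrix (Fin n) (Fin n) R) *
      (t : Matrix (Fin n) (Fin n) R) = 1 := by
    rw [← Matrix.SpecialLinearGroup.coe_mul, inv_mul_cancel, Matrix.SpecialLinearGroup.coe_one]
  set T : Matrix (Fin n) (Fin n) R :=
    ((t⁻¹ : Matrix.SpecialLinearGroup (Fin n) R) : Matrix (Fin n) (Fin n) R) with hT
  refine ⟨Matrix.vecMul f T, fun j hj => ?_, ?_⟩
  · have e1 : T.mulVec (Pi.single j 1) = Pi.single j 1 := by
      conv_lhs => rw [← h1 j hj]
      rw [Matrix.mulVec_mulVec, hinv, Matrix.one_mulVec]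
    have e2 : dotProduct (Matrix.vecMul f T) (Pi.single j 1) = dotProduct f (Pi.single j 1) := by
      rw [← Matrix.dotProduct_mulVec, e1]
    rw [dotProduct_single, dotProduct_single, mul_one, mul_one] at e2
    rw [e2, hf j hj]
  · rw [← h2, ← Matrix.dotProduct_mulVec, Matrix.mulVec_mulVec, hinv, Matrix.one_mulVec, hfx]

/-- Euclid for two rows -/
private theorem euclid_pair (hG : ∀ (i j : Fin n) (h : i ≠ j) (r : R), tv i j h r ∈ G)
    (N : R → ℕ) (hN : ∀ a b : R, b ≠ 0 → ∃ q : R, N (a - q * b) < N b)
    {c i : Fin n} (hci : c ≠ i) (hc : c ∉ s) (hi : i ∉ s) (m : ℕ) :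
    ∀ x : Fin n → R, N (x i) ≤ m → ∃ y, Rel G s x y ∧ y i = 0 ∧ ∀ l, l ≠ i → l ≠ c → y l = x l := by
  induction m with
  | zero =>
    intro x hx
    by_cases h0 : x i = 0
    · exact ⟨x, Rel.refl x, h0, fun _ _ _ => rfl⟩
    · obtain ⟨q, hq⟩ := hN (x c) (x i) h0
      omega
  | succ m ih =>
    intro x hx
    by_cases h0 : x i = 0
    · exact ⟨x, Rel.refl x, h0, fun _ _ _ => rfl⟩
    · obtain ⟨q, hq⟩ := hN (x c) (x i) h0
      set x1 := Function.update x c (x c + (-q - 1) * x i) with hx1
      set x2 := Function.update x1 i (x1 i + 1 * x1 c) with hx2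
      have r1 : Rel G s x x1 := Rel.step hG hci hi _ x
      have r2 : Rel G s x1 x2 := Rel.step hG hci.symm hc _ x1
      have e1 : x2 i = x c - q * x i := by
        rw [hx2, Function.update_self, hx1, Function.update_self, Function.update_of_ne hci.symm]
        ring
      obtain ⟨y, hy, hy0, hyl⟩ := ih x2 (by rw [e1]; omega)
      refine ⟨y, (r1.trans r2).trans hy, hy0, fun l hl hlc => ?_⟩
      rw [hyl l hl hlc, hx2, Function.update_of_ne hl, hx1, Function.update_of_ne hlc]

/-- Euclid for a column -/
private theorem euclid_all (hG : ∀ (i j : Fin n) (h : i ≠ j) (r : R), tv i j h r ∈ G)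
    (N : R → ℕ) (hN : ∀ a b : R, b ≠ 0 → ∃ q : R, N (a - q * b) < N b)
    {c : Fin n} (hc : c ∉ s) (S : Finset (Fin n)) :
    c ∉ S → (∀ i ∈ S, i ∉ s) → ∀ x : Fin n → R, ∃ y, Rel G s x y ∧ ∀ i ∈ S, y i = 0 := by
  induction S using Finset.induction_on with
  | empty =>
    intro _ _ x
    exact ⟨x, Rel.refl x, by simp⟩
  | insert a S ha ih =>
    intro hcS hS x
    rw [Finset.mem_insert, not_or] at hcS
    obtain ⟨y, hy, hy0⟩ := ih hcS.2 (fun i hi => hS i (Finset.mem_insert_of_mem hi)) x
    obtain ⟨z, hz, hz0, hzl⟩ := euclid_pair hG N hN hcS.1 hc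
      (hS a (Finset.mem_insert_self a S)) (N (y a)) y le_rfl
    refine ⟨z, hy.trans hz, fun i hi => ?_⟩
    rcases Finset.mem_insert.1 hi with h | h
    · rw [h, hz0]
    · have h1 : i ≠ a := fun e => ha (e ▸ h)
      have h2 : i ≠ c := fun e => hcS.2 (e ▸ h)
      rw [hzl i h1 h2, hy0 i h]

/-- clearing the rows in `S` with the row `c` -/
private theorem clear_rows (hG : ∀ (i j : Fin n) (h : i ≠ j) (r : R), tv i j h r ∈ G)
    {c : Fin n} (hc : c ∉ s) (x : Fin n → R) (hx : x c = 1) (S : Finset (Fin n)) (hcS : c ∉ S) :
    Rel G s x (fun i => if i ∈ S then 0 else x i) := by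
  induction S using Finset.induction_on with
  | empty =>
    simp only [Finset.notMem_empty, if_false]
    exact Rel.refl x
  | insert a S ha ih =>
    rw [Finset.mem_insert, not_or] at hcS
    have h1 := Rel.step (s := s) hG (Ne.symm hcS.1) hc (-(x a)) (fun i => if i ∈ S then 0 else x i)
    refine (ih hcS.2).trans ?_
    have e1 : Function.update (fun i => if i ∈ S then 0 else x i) a
        ((if a ∈ S then 0 else x a) + -(x a) * (if c ∈ S then 0 else x c)) =
          fun i => if i ∈ insert a S then 0 else x i := by
      funext i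
      by_cases hi : i = a
      · subst hi
        rw [Function.update_self, if_neg ha, if_neg hcS.2, if_pos (Finset.mem_insert_self _ _), hx]
        ring
      · rw [Function.update_of_ne hi]
        simp only [Finset.mem_insert, hi, false_or]
    rw [← e1]
    exact h1

private theorem to_single (hG : ∀ (i j : Fin n) (h : i ≠ j) (r : R), tv i j h r ∈ G)
    (N : R → ℕ) (hN : ∀ a b : R, b ≠ 0 → ∃ q : R, N (a - q * b) < N b)
    {c : Fin n} (hc : c ∉ s) (x : Fin n → R) (hx : Unim s x)
    (h1 : (∀ i, i ≠ c → i ∈ s) → x c = 1) : Rel G s x (Pi.single c 1) := by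
  obtain ⟨y, hy, hyc⟩ : ∃ y, Rel G s x y ∧ y c = 1 := by
    by_cases hs : ∀ i, i ≠ c → i ∈ s
    · exact ⟨x, Rel.refl x, h1 hs⟩
    · push Not at hs
      obtain ⟨d, hdc, hds⟩ := hs
      obtain ⟨y, hy, hy0⟩ := euclid_all (G := G) hG N hN hc ((sᶜ).erase c)
        (Finset.notMem_erase c _)
        (fun i hi => Finset.mem_compl.1 (Finset.mem_of_mem_erase hi)) x
      obtain ⟨f, hf, hfy⟩ := hy.unim hx
      have e1 : f c * y c = 1 := by
        rw [← hfy, dotProduct, Finset.sum_eq_single c]
        · intro b _ hb
          by_cases hbs : b ∈ s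
          · rw [hf b hbs, zero_mul]
          · rw [hy0 b (Finset.mem_erase.2 ⟨hb, Finset.mem_compl.2 hbs⟩), mul_zero]
        · intro h
          exact absurd (Finset.mem_univ c) h
      have hyd : y d = 0 := hy0 d (Finset.mem_erase.2 ⟨hdc, Finset.mem_compl.2 hds⟩)
      have r1 := Rel.step (G := G) (s := s) hG hdc hc (f c) y
      have r2 := Rel.step (G := G) (s := s) hG hdc.symm hds (1 - y c)
        (Function.update y d (y d + f c * y c))
      refine ⟨_, (hy.trans r1).trans r2, ?_⟩
      rw [Function.update_self, Function.update_self, Function.update_of_ne hdc.symm, hyd, e1]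
      ring
  obtain ⟨z, hz, hz0, hzc⟩ : ∃ z, Rel G s y z ∧ (∀ i, i ≠ c → z i = 0) ∧ z c = 1 := by
    refine ⟨_, clear_rows hG hc y hyc (Finset.univ.erase c) (Finset.notMem_erase c _), ?_, ?_⟩
    · intro i hi
      rw [if_pos (Finset.mem_erase.2 ⟨hi, Finset.mem_univ i⟩)]
    · rw [if_neg (Finset.notMem_erase c _), hyc]
  have : z = Pi.single c 1 := by
    funext i
    by_cases hi : i = c
    · subst hi
      rw [hzc, Pi.single_eq_same]
    · rw [hz0 i hi, Pi.single_eq_of_ne hi]
  rw [← this]
  exact hy.trans hz

private theorem det_last {A : Matrix (Fin n) (Fin n) R} {c : Fin n}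
    (h : ∀ j, j ≠ c → A.mulVec (Pi.single j 1) = Pi.single j 1) : A.det = A c c := by
  have e1 : A = (1 : Matrix (Fin n) (Fin n) R).updateCol c (fun i => A i c) := by
    ext i j
    by_cases hj : j = c
    · subst hj
      rw [Matrix.updateCol_self]
    · rw [Matrix.updateCol_ne hj]
      have h1 := congrFun (h j hj) i
      rw [Matrix.mulVec_single_one, Matrix.col_apply] at h1
      rw [h1, Matrix.one_apply, Pi.single_apply]
  conv_lhs => rw [e1]
  rw [← Matrix.cramer_apply, Matrix.cramer_one]
  rfl

private theorem gen_aux (hG : ∀ (i j : Fin n) (h : i ≠ j) (r : R), tv i j h r ∈ G)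
    (N : R → ℕ) (hN : ∀ a b : R, b ≠ 0 → ∃ q : R, N (a - q * b) < N b) (m : ℕ) :
    ∀ (s : Finset (Fin n)), (sᶜ).card ≤ m → ∀ A : Matrix.SpecialLinearGroup (Fin n) R,
      (∀ j ∈ s, (A : Matrix (Fin n) (Fin n) R).mulVec (Pi.single j 1) = Pi.single j 1) →
      A ∈ G := by
  induction m with
  | zero =>
    intro s hs A hA
    have h1 : ∀ j, j ∈ s := by
      intro j
      by_contra hj
      have : 0 < (sᶜ).card := Finset.card_pos.2 ⟨j, Finset.mem_compl.2 hj⟩
      omega
    have : A = 1 := by
      apply Subtype.ext
      refine Matrix.ext_of_mulVec_single fun j => ?_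
      rw [hA j (h1 j)]
      rw [Matrix.SpecialLinearGroup.coe_one, Matrix.one_mulVec]
    rw [this]
    exact G.one_mem
  | succ m ih =>
    intro s hs A hA
    by_cases hall : ∀ j, j ∈ s
    · refine ih s ?_ A hA
      have : sᶜ = ∅ := by
        ext j
        simp [hall j]
      rw [this]
      simp
    · push Not at hall
      obtain ⟨c, hc⟩ := hall
      have hinv : ((A⁻¹ : Matrix.SpecialLinearGroup (Fin n) R) : Matrix (Fin n) (Fin n) R) *
          (A : Matrix (Fin n) (Fin n) R) = 1 := by
        rw [← Matrix.SpecialLinearGroup.coe_mul, inv_mul_cancel,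
          Matrix.SpecialLinearGroup.coe_one]
      set x := (A : Matrix (Fin n) (Fin n) R).mulVec (Pi.single c 1) with hx
      have hxu : Unim s x := by
        refine ⟨Matrix.vecMul (Pi.single c 1)
          ((A⁻¹ : Matrix.SpecialLinearGroup (Fin n) R) : Matrix (Fin n) (Fin n) R), ?_, ?_⟩
        · intro j hj
          have e1 : ((A⁻¹ : Matrix.SpecialLinearGroup (Fin n) R) :
              Matrix (Fin n) (Fin n) R).mulVec (Pi.single j 1) = Pi.single j 1 := by
            conv_lhs => rw [← hA j hj]
            rw [Matrix.mulVec_mulVec, hinv, Matrix.one_mulVec]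
          have e2 : dotProduct (Matrix.vecMul (Pi.single c 1)
              ((A⁻¹ : Matrix.SpecialLinearGroup (Fin n) R) : Matrix (Fin n) (Fin n) R))
              (Pi.single j 1) = dotProduct (Pi.single c (1 : R)) (Pi.single j 1) := by
            rw [← Matrix.dotProduct_mulVec, e1]
          have hcj : j ≠ c := fun e => hc (e ▸ hj)
          rw [dotProduct_single, dotProduct_single, mul_one, mul_one,
            Pi.single_eq_of_ne hcj] at e2
          exact e2
        · rw [hx, ← Matrix.dotProduct_mulVec, Matrix.mulVec_mulVec, hinv, Matrix.one_mulVec,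
            dotProduct_single, mul_one, Pi.single_eq_same]
      obtain ⟨t, ht, ht1, ht2⟩ := to_single hG N hN hc x hxu (fun hall => by
        have h1 := det_last (A := (A : Matrix (Fin n) (Fin n) R)) (c := c)
          (fun j hj => hA j (hall j hj))
        rw [A.2] at h1
        rw [hx, Matrix.mulVec_single_one, Matrix.col_apply]
        exact h1.symm)
      have h2 : t * A ∈ G := by
        refine ih (insert c s) ?_ (t * A) ?_
        · have h3 : (insert c s)ᶜ = (sᶜ).erase c := by
            ext j
            simp [Finset.mem_erase]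
          rw [h3, Finset.card_erase_of_mem (Finset.mem_compl.2 hc)]
          omega
        · intro j hj
          rw [Matrix.SpecialLinearGroup.coe_mul, ← Matrix.mulVec_mulVec]
          rcases Finset.mem_insert.1 hj with h | h
          · rw [h, ← hx, ht2]
          · rw [hA j h, ht1 j h]
      have h3 := G.mul_mem (G.inv_mem ht) h2
      rwa [inv_mul_cancel_left] at h3

end rel

private noncomputable def NN {k : Type*} [Field k] (p : k[X]) : ℕ :=
  if p = 0 then 0 else p.natDegree + 1

private theorem NN_mod {k : Type*} [Field k] (a b : k[X]) (hb : b ≠ 0) :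
    ∃ q : k[X], NN (a - q * b) < NN b := by
  refine ⟨a / b, ?_⟩
  have h1 : a - a / b * b = a % b := by
    have h2 := EuclideanDomain.div_add_mod a b
    rw [sub_eq_iff_eq_add, mul_comm (a / b) b, add_comm]
    exact h2.symm
  rw [h1]
  unfold NN
  rw [if_neg hb]
  by_cases h0 : a % b = 0
  · rw [if_pos h0]
    omega
  · rw [if_neg h0]
    have := natDegree_lt_natDegree h0 (EuclideanDomain.mod_lt a hb)
    omega

theorem SL_gen (k : Type*) [Field k] {n : ℕ} (l : Fin n) :
    Subgroup.closure {g : Matrix.SpecialLinearGroup (Fin n) k[X] |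
      ∃ (j : Fin n) (h : j ≠ l) (r : k[X]), g = tv l j h.symm r ∨ g = tv j l h r} = ⊤ := by
  rw [eq_top_iff]
  intro A _
  refine gen_aux ?_ NN NN_mod _ ∅ le_rfl A (by simp)
  intro i j h r
  by_cases hi : i = l
  · subst hi
    exact Subgroup.subset_closure ⟨j, h.symm, r, Or.inl rfl⟩
  · by_cases hj : j = l
    · subst hj
      exact Subgroup.subset_closure ⟨i, h, r, Or.inr rfl⟩
    · rw [tv_comm i j l h hi (Ne.symm hj) r]
      refine Subgroup.mul_mem _ (Subgroup.mul_mem _ (Subgroup.mul_mem _ ?_ ?_) ?_) ?_
      · exact Subgroup.subset_closure ⟨i, hi, r, Or.inr rfl⟩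
      · exact Subgroup.subset_closure ⟨j, hj, 1, Or.inl rfl⟩
      · exact Subgroup.subset_closure ⟨i, hi, -r, Or.inr rfl⟩
      · exact Subgroup.subset_closure ⟨j, hj, -1, Or.inl rfl⟩

end Vale.P067.D2
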