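import Vale.Agent.Lib.P067.Defs

/-!
# P067 D2: elementary operators on `F_2`-chains (cone, link, deletion, push-forward)
-/

namespace Vale.P067.D2

open scoped Classical
open Vale.P067

variable {V W : Type*}

theorem bd_single (σ : Finset V) (c : ZMod 2) :
    bd (Finsupp.single σ c) = ∑ v ∈ σ, Finsupp.single (σ.erase v) c := by
  rw [bd, Finsupp.lsum_single, LinearMap.toSpanSingleton_apply, Finset.smul_sum]
  refine Finset.sum_congr rfl fun v _ => ?_
  rw [Finsupp.smul_single, smul_eq_mul, mul_one]

theorem ch_add_self (z : Ch V) : z + z = 0 := by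
  ext σ
  simp only [Finsupp.coe_add, Pi.add_apply, Finsupp.coe_zero, Pi.zero_apply]
  exact CharTwo.add_self_eq_zero _

theorem ch_neg (z : Ch V) : -z = z := by
  rw [neg_eq_iff_add_eq_zero, ch_add_self]

theorem ch_sub (z w : Ch V) : z - w = z + w := by
  rw [sub_eq_add_neg, ch_neg]

/-- a general operator given on simplices -/
noncomputable def opr (F : Finset V → Ch W) : Ch V →ₗ[ZMod 2] Ch W :=
  Finsupp.lsum (ZMod 2) fun σ => LinearMap.toSpanSingleton (ZMod 2) (Ch W) (F σ)

theorem opr_single (F : Finset V → Ch W) (σ : Finset V) (c : ZMod 2) :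
    opr F (Finsupp.single σ c) = c • F σ := by
  rw [opr, Finsupp.lsum_single, LinearMap.toSpanSingleton_apply]

/-- the operator `opr F z` is supported on the supports of the `F σ`, `σ` in the support of `z` -/
theorem mem_support_opr {F : Finset V → Ch W} {z : Ch V} {τ : Finset W}
    (h : τ ∈ (opr F z).support) : ∃ σ ∈ z.support, τ ∈ (F σ).support := by
  by_contra hc
  push Not at hc
  rw [Finsupp.mem_support_iff] at h
  apply h
  rw [opr, Finsupp.lsum_apply, Finsupp.sum, Finsupp.finsetSum_apply]
  refine Finset.sum_eq_zero fun σ hσ => ?_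
  have := hc σ hσ
  rw [Finsupp.notMem_support_iff] at this
  simp [LinearMap.toSpanSingleton_apply, this]

/-- cone with apex `e` -/
noncomputable def cone (e : V) : Ch V →ₗ[ZMod 2] Ch V :=
  opr fun σ => if e ∈ σ then 0 else Finsupp.single (insert e σ) 1

/-- link part at `e` -/
noncomputable def lnk (e : V) : Ch V →ₗ[ZMod 2] Ch V :=
  opr fun σ => if e ∈ σ then Finsupp.single (σ.erase e) 1 else 0

/-- the part not containing `e` -/
noncomputable def dlt (e : V) : Ch V →ₗ[ZMod 2] Ch V :=
  opr fun σ => if e ∈ σ then 0 else Finsupp.single σ 1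

theorem linext {F G : Ch V →ₗ[ZMod 2] Ch W}
    (h : ∀ σ, F (Finsupp.single σ 1) = G (Finsupp.single σ 1)) : F = G := by
  refine Finsupp.lhom_ext fun σ c => ?_
  have : Finsupp.single σ c = c • Finsupp.single σ (1 : ZMod 2) := by simp
  rw [this, map_smul, map_smul, h]

theorem decomp (e : V) (z : Ch V) : cone e (lnk e z) + dlt e z = z := by
  have : (cone e ∘ₗ lnk e + dlt e : Ch V →ₗ[ZMod 2] Ch V) = LinearMap.id := by
    refine linext fun σ => ?_
    rw [LinearMap.add_apply, LinearMap.comp_apply, lnk, dlt, opr_single, opr_single, one_smul,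
      one_smul, LinearMap.id_apply]
    by_cases h : e ∈ σ
    · rw [if_pos h, if_pos h, cone, opr_single, if_neg (Finset.notMem_erase e σ), one_smul,
        Finset.insert_erase h, add_zero]
    · rw [if_neg h, if_neg h, map_zero, zero_add]
  have h2 := congrArg (fun F => F z) this
  simpa using h2

theorem lnk_bd (e : V) (z : Ch V) : lnk e (bd z) = bd (lnk e z) := by
  have : (lnk e ∘ₗ bd : Ch V →ₗ[ZMod 2] Ch V) = bd ∘ₗ lnk e := by
    refine linext fun σ => ?_
    rw [LinearMap.comp_apply, LinearMap.comp_apply, bd_single, map_sum]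
    by_cases h : e ∈ σ
    · rw [lnk, opr_single, one_smul, if_pos h, bd_single,
        ← Finset.add_sum_erase σ _ h]
      rw [opr_single, if_neg (Finset.notMem_erase e σ), smul_zero, zero_add]
      refine Finset.sum_congr rfl fun v hv => ?_
      rw [opr_single, one_smul, if_pos (Finset.mem_erase.2 ⟨(Finset.ne_of_mem_erase hv).symm, h⟩),
        Finset.erase_right_comm]
    · rw [lnk, opr_single, if_neg h, smul_zero, map_zero]
      refine Finset.sum_eq_zero fun v hv => ?_
      rw [opr_single, if_neg (fun h' => h (Finset.mem_of_mem_erase h')), smul_zero]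
  have h2 := congrArg (fun F => F z) this
  simpa using h2

theorem bd_cone (e : V) (z : Ch V) : bd (cone e z) + cone e (bd z) = z := by
  have : (bd ∘ₗ cone e + cone e ∘ₗ bd : Ch V →ₗ[ZMod 2] Ch V) = LinearMap.id := by
    refine linext fun σ => ?_
    rw [LinearMap.add_apply, LinearMap.comp_apply, LinearMap.comp_apply, bd_single, map_sum,
      LinearMap.id_apply]
    by_cases h : e ∈ σ
    · have h1 : cone e (Finsupp.single σ 1) = 0 := by
        rw [cone, opr_single, if_pos h, smul_zero]
      rw [h1, map_zero, zero_add, ← Finset.add_sum_erase σ _ h]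
      rw [cone, opr_single, if_neg (Finset.notMem_erase e σ), one_smul, Finset.insert_erase h]
      have : ∑ v ∈ σ.erase e, (opr fun σ => if e ∈ σ then (0 : Ch V) else
          Finsupp.single (insert e σ) 1) (Finsupp.single (σ.erase v) 1) = 0 := by
        refine Finset.sum_eq_zero fun v hv => ?_
        rw [opr_single, if_pos (Finset.mem_erase.2 ⟨(Finset.ne_of_mem_erase hv).symm, h⟩),
          smul_zero]
      rw [this, add_zero]
    · have h1 : cone e (Finsupp.single σ 1) = Finsupp.single (insert e σ) 1 := by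
        rw [cone, opr_single, if_neg h, one_smul]
      rw [h1, bd_single, Finset.sum_insert h, Finset.erase_insert h, add_assoc]
      have : ∑ v ∈ σ, cone e (Finsupp.single (σ.erase v) (1 : ZMod 2)) =
          ∑ v ∈ σ, Finsupp.single ((insert e σ).erase v) 1 := by
        refine Finset.sum_congr rfl fun v hv => ?_
        rw [cone, opr_single, if_neg (fun h' => h (Finset.mem_of_mem_erase h')), one_smul,
          Finset.erase_insert_of_ne]
        rintro rfl
        exact h hv
      rw [this, ch_add_self, add_zero]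
  have h2 := congrArg (fun F => F z) this
  simpa using h2

theorem bd_bd (z : Ch V) : bd (bd z) = 0 := by
  have : (bd ∘ₗ bd : Ch V →ₗ[ZMod 2] Ch V) = 0 := by
    refine linext fun σ => ?_
    rw [LinearMap.comp_apply, LinearMap.zero_apply]
    induction σ using Finset.induction_on with
    | empty => rw [bd_single]; simp
    | insert e σ he ih =>
      have h1 : Finsupp.single (insert e σ) (1 : ZMod 2) = cone e (Finsupp.single σ 1) := by
        rw [cone, opr_single, if_neg he, one_smul]
      have h2 := bd_cone e (Finsupp.single σ (1 : ZMod 2))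
      have h3 : bd (cone e (Finsupp.single σ (1 : ZMod 2))) =
          Finsupp.single σ 1 + cone e (bd (Finsupp.single σ 1)) := by
        rw [← ch_sub, eq_sub_iff_add_eq]
        exact h2
      rw [h1, h3, map_add]
      have h4 := bd_cone e (bd (Finsupp.single σ (1 : ZMod 2)))
      rw [ih, map_zero, add_zero] at h4
      rw [h4, ch_add_self]
  have h2 := congrArg (fun F => F z) this
  simpa using h2

/-- push-forward -/
noncomputable def push (φ : V → W) (z : Ch V) : Ch W := z.mapDomain (Finset.image φ)

theorem push_add (φ : V → W) (y z : Ch V) : push φ (y + z) = push φ y + push φ z :=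
  Finsupp.mapDomain_add

theorem push_single (φ : V → W) (σ : Finset V) (c : ZMod 2) :
    push φ (Finsupp.single σ c) = Finsupp.single (σ.image φ) c :=
  Finsupp.mapDomain_single

theorem mem_support_push {φ : V → W} {z : Ch V} {τ : Finset W} (h : τ ∈ (push φ z).support) :
    ∃ σ ∈ z.support, σ.image φ = τ := by
  have := Finsupp.mapDomain_support h
  simpa using this

theorem push_sum {ι : Type*} (φ : V → W) (s : Finset ι) (f : ι → Ch V) :
    push φ (∑ i ∈ s, f i) = ∑ i ∈ s, push φ (f i) := by
  induction s using Finset.induction_on with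
  | empty => simp [push]
  | insert a s ha ih => rw [Finset.sum_insert ha, Finset.sum_insert ha, push_add, ih]

theorem bd_push (φ : V → W) (z : Ch V) (h : ∀ σ ∈ z.support, Set.InjOn φ (σ : Set V)) :
    bd (push φ z) = push φ (bd z) := by
  have key : ∀ σ : Finset V, Set.InjOn φ (σ : Set V) → ∀ c : ZMod 2,
      bd (push φ (Finsupp.single σ c)) = push φ (bd (Finsupp.single σ c)) := by
    intro σ hσ c
    rw [push_single, bd_single, bd_single, push_sum, Finset.sum_image]
    · refine Finset.sum_congr rfl fun v hv => ?_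
      rw [push_single]
      congr 1
      ext w
      simp only [Finset.mem_erase, Finset.mem_image]
      constructor
      · rintro ⟨h1, u, hu, rfl⟩
        exact ⟨u, ⟨fun h2 => h1 (by rw [h2]), hu⟩, rfl⟩
      · rintro ⟨u, ⟨h1, hu⟩, rfl⟩
        exact ⟨fun h2 => h1 (hσ hu hv h2), u, hu, rfl⟩
    · intro a ha b hb hab
      exact hσ ha hb hab
  have hz : z = ∑ σ ∈ z.support, Finsupp.single σ (z σ) := (Finsupp.sum_single z).symm
  calc bd (push φ z) = bd (push φ (∑ σ ∈ z.support, Finsupp.single σ (z σ))) := by rw [← hz]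
    _ = ∑ σ ∈ z.support, bd (push φ (Finsupp.single σ (z σ))) := by rw [push_sum, map_sum]
    _ = ∑ σ ∈ z.support, push φ (bd (Finsupp.single σ (z σ))) :=
        Finset.sum_congr rfl fun σ hσ => key σ (h σ hσ) _
    _ = push φ (bd (∑ σ ∈ z.support, Finsupp.single σ (z σ))) := by rw [map_sum, push_sum]
    _ = push φ (bd z) := by rw [← hz]

theorem push_eq_self (φ : V → V) (z : Ch V) (h : ∀ σ ∈ z.support, ∀ v ∈ σ, φ v = v) :
    push φ z = z := by
  have key : ∀ σ ∈ z.support, push φ (Finsupp.single σ (z σ)) = Finsupp.single σ (z σ) := by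
    intro σ hσ
    rw [push_single]
    congr 1
    ext w
    rw [Finset.mem_image]
    constructor
    · rintro ⟨u, hu, rfl⟩
      rw [h σ hσ u hu]
      exact hu
    · intro hw
      exact ⟨w, hw, h σ hσ w hw⟩
  have hz : z = ∑ σ ∈ z.support, Finsupp.single σ (z σ) := (Finsupp.sum_single z).symm
  calc push φ z = push φ (∑ σ ∈ z.support, Finsupp.single σ (z σ)) := by rw [← hz]
    _ = ∑ σ ∈ z.support, push φ (Finsupp.single σ (z σ)) := push_sum _ _ _
    _ = ∑ σ ∈ z.support, Finsupp.single σ (z σ) := Finset.sum_congr rfl key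
    _ = z := hz.symm

theorem mem_support_cone {e : V} {z : Ch V} {τ : Finset V} (h : τ ∈ (cone e z).support) :
    ∃ σ ∈ z.support, e ∉ σ ∧ τ = insert e σ := by
  obtain ⟨σ, hσ, h1⟩ := mem_support_opr h
  refine ⟨σ, hσ, ?_⟩
  by_cases he : e ∈ σ
  · simp [if_pos he] at h1
  · rw [if_neg he] at h1
    have := Finsupp.support_single_subset h1
    exact ⟨he, by simpa using this⟩

theorem mem_support_lnk {e : V} {z : Ch V} {τ : Finset V} (h : τ ∈ (lnk e z).support) :
    ∃ σ ∈ z.support, e ∈ σ ∧ τ = σ.erase e := by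
  obtain ⟨σ, hσ, h1⟩ := mem_support_opr h
  refine ⟨σ, hσ, ?_⟩
  by_cases he : e ∈ σ
  · rw [if_pos he] at h1
    have := Finsupp.support_single_subset h1
    exact ⟨he, by simpa using this⟩
  · simp [if_neg he] at h1

theorem mem_support_dlt {e : V} {z : Ch V} {τ : Finset V} (h : τ ∈ (dlt e z).support) :
    τ ∈ z.support ∧ e ∉ τ := by
  obtain ⟨σ, hσ, h1⟩ := mem_support_opr h
  by_cases he : e ∈ σ
  · simp [if_pos he] at h1
  · rw [if_neg he] at h1
    have := Finsupp.support_single_subset h1
    have h2 : τ = σ := by simpa using this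
    rw [h2]
    exact ⟨hσ, he⟩

theorem mem_support_add {y z : Ch V} {τ : Finset V} (h : τ ∈ (y + z).support) :
    τ ∈ y.support ∨ τ ∈ z.support := by
  have := Finsupp.support_add h
  simpa using this

theorem mem_support_bd {z : Ch V} {τ : Finset V} (h : τ ∈ (bd z).support) :
    ∃ σ ∈ z.support, ∃ v ∈ σ, τ = σ.erase v := by
  by_contra hc
  simp only [not_exists, not_and] at hc
  rw [Finsupp.mem_support_iff] at h
  apply h
  have hz : z = ∑ σ ∈ z.support, Finsupp.single σ (z σ) := (Finsupp.sum_single z).symm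
  rw [hz, map_sum, Finsupp.finsetSum_apply]
  refine Finset.sum_eq_zero fun σ hσ => ?_
  rw [bd_single, Finsupp.finsetSum_apply]
  refine Finset.sum_eq_zero fun v hv => ?_
  rw [Finsupp.single_apply, if_neg]
  exact fun h1 => hc σ hσ v hv h1.symm

theorem On.bd {K : Set (Finset V)} (hK : ∀ σ ∈ K, ∀ v ∈ σ, σ.erase v ∈ K) {j : ℕ} {z : Ch V}
    (hz : On K (j + 1) z) : On K j (bd z) := by
  intro τ hτ
  obtain ⟨σ, hσ, v, hv, rfl⟩ := mem_support_bd hτ
  obtain ⟨h1, h2⟩ := hz σ hσ
  refine ⟨hK σ h1 v hv, ?_⟩
  rw [Finset.card_erase_of_mem hv, h2]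
  rfl

theorem On.add {K : Set (Finset V)} {j : ℕ} {y z : Ch V} (hy : On K j y) (hz : On K j z) :
    On K j (y + z) := by
  intro τ hτ
  rcases mem_support_add hτ with h | h
  · exact hy τ h
  · exact hz τ h

end Vale.P067.D2
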