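import Vale.Agent.Lib.P067.D2.Euclid

/-!
# P067 D2.1: partial bases of `R^n` and `SL_n(R)`

`PB.map`: invariance under linear automorphisms.  `exists_SL`: a partial basis with `p < n` elements
in any given order is the image of given distinct standard vectors under an element of `SL_n(R)`.
-/

namespace Vale.P067.D2

open scoped Classical Matrix
open Vale.P067

section general
variable {R : Type*} [CommRing R] {M M' : Type*} [AddCommGroup M] [Module R M]
  [AddCommGroup M'] [Module R M']

theorem PB.map {s : Finset M} (hs : PB R s) (g : M ≃ₗ[R] M') : PB R (s.image g) := by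
  obtain ⟨f, hf⟩ := hs
  refine ⟨fun v => f (g.symm v) ∘ₗ (g.symm : M' →ₗ[R] M), ?_⟩
  intro v hv w hw
  obtain ⟨a, ha, rfl⟩ := Finset.mem_image.1 hv
  obtain ⟨b, hb, rfl⟩ := Finset.mem_image.1 hw
  simp only [LinearMap.comp_apply, LinearEquiv.coe_coe, LinearEquiv.symm_apply_apply]
  rw [hf a ha b hb]
  by_cases h : a = b
  · rw [if_pos h, if_pos (by rw [h])]
  · rw [if_neg h, if_neg (fun h' => h (g.injective h'))]

theorem PB_map_iff {s : Finset M} (g : M ≃ₗ[R] M') : PB R (s.image g) ↔ PB R s := by
  refine ⟨fun h => ?_, fun h => h.map g⟩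
  have h2 := h.map g.symm
  rw [Finset.image_image] at h2
  have h3 : s.image (g.symm ∘ g) = s := by
    have : (g.symm ∘ g : M → M) = id := by
      funext x
      simp
    rw [this, Finset.image_id]
  rwa [h3] at h2

/-- subsets of the range of a basis are partial bases -/
theorem PB_of_basis [Nontrivial R] {ι : Type*} (b : Module.Basis ι R M) (s : Finset M)
    (hs : ∀ v ∈ s, v ∈ Set.range b) : PB R s := by
  refine ⟨fun v => if h : ∃ i, b i = v then b.coord h.choose else 0, ?_⟩
  intro v hv w hw
  have hv' : ∃ i, b i = v := hs v hv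
  obtain ⟨j, rfl⟩ := hs w hw
  simp only [dif_pos hv']
  have h1 := hv'.choose_spec
  rw [Module.Basis.coord_apply, Module.Basis.repr_self]
  by_cases h : hv'.choose = j
  · rw [h, Finsupp.single_eq_same, if_pos]
    rw [← h1, h]
  · rw [Finsupp.single_eq_of_ne (Ne.symm (fun h' => h h'.symm)), if_neg]
    intro h2
    apply h
    exact b.injective (h1.trans h2)

end general

section matrices
variable {R : Type*} [CommRing R] [IsDomain R] [IsPrincipalIdealRing R]

/-- a basis of `R^n` extending a partial basis, with prescribed indices -/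
theorem exists_basis {n p : ℕ} (ι : Fin p ↪ Fin n) (v : Fin p → (Fin n → R))
    (hv : Function.Injective v) (hPB : PB R (Finset.univ.image v)) :
    ∃ b : Module.Basis (Fin n) R (Fin n → R), ∀ i, b (ι i) = v i := by
  obtain ⟨f, hf⟩ := hPB
  have hf' : ∀ i j, f (v i) (v j) = if i = j then 1 else 0 := by
    intro i j
    rw [hf (v i) (Finset.mem_image_of_mem _ (Finset.mem_univ _)) (v j)
      (Finset.mem_image_of_mem _ (Finset.mem_univ _))]
    by_cases h : i = j
    · rw [if_pos h, if_pos (by rw [h])]
    · rw [if_neg h, if_neg (fun h' => h (hv h'))]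
  let F : (Fin n → R) →ₗ[R] (Fin p → R) := LinearMap.pi fun i => f (v i)
  let S : (Fin p → R) →ₗ[R] (Fin n → R) := Fintype.linearCombination R v
  have hFS : ∀ a, F (S a) = a := by
    intro a
    funext i
    simp only [F, S, LinearMap.pi_apply, Fintype.linearCombination_apply, map_sum, map_smul,
      smul_eq_mul, hf']
    simp
  let K := LinearMap.ker F
  have hker : ∀ x, x - S (F x) ∈ K := by
    intro x
    rw [LinearMap.mem_ker, map_sub, hFS, sub_self]
  let e : (Fin n → R) ≃ₗ[R] (Fin p → R) × K :=
    LinearEquiv.ofLinearMap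
      (F.prod ((LinearMap.id - S ∘ₗ F).codRestrict K (fun x => by
        simpa using hker x)))
      (S.coprod K.subtype)
      (by
        refine LinearMap.ext fun y => ?_
        obtain ⟨a, x⟩ := y
        have hx : F x = 0 := LinearMap.mem_ker.1 x.2
        apply Prod.ext
        · simp [hFS, hx]
        · apply Subtype.ext
          simp [hFS, hx])
      (by
        refine LinearMap.ext fun x => ?_
        simp)
  have : Module.Free R K :=
    Module.Free.of_basis (Submodule.basisOfPid (Module.Free.chooseBasis R (Fin n → R)) K).2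
  have : Module.Finite R K := Module.Finite.of_basis (Submodule.basisOfPid (Module.Free.chooseBasis R (Fin n → R)) K).2
  have hrank : Module.finrank R K + p = n := by
    have h1 := e.finrank_eq
    rw [Module.finrank_prod, Module.finrank_fintype_fun_eq_card, Fintype.card_fin,
      Module.finrank_fintype_fun_eq_card, Fintype.card_fin] at h1
    omega
  let C := {x : Fin n // x ∉ Set.range ι}
  have hcardC : Fintype.card C = Module.finrank R K := by
    have h1 : Fintype.card {x : Fin n // x ∈ Set.range ι} = p := by
      rw [Fintype.card_congr (Equiv.ofInjective ι ι.injective).symm, Fintype.card_fin]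
    have h2 := Fintype.card_subtype_compl (fun x : Fin n => x ∈ Set.range ι)
    rw [h1, Fintype.card_fin] at h2
    change Fintype.card C = _ at h2
    omega
  let bK : Module.Basis C R K := (Module.finBasis R K).reindex
    ((finCongr hcardC.symm).trans (Fintype.equivFin C).symm)
  let σ : Fin p ⊕ C ≃ Fin n := (Equiv.sumCongr (Equiv.ofInjective ι ι.injective) (Equiv.refl C)).trans
    (Equiv.sumCompl (fun x : Fin n => x ∈ Set.range ι))
  let b0 : Module.Basis (Fin p ⊕ C) R ((Fin p → R) × K) := (Pi.basisFun R (Fin p)).prod bK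
  refine ⟨(b0.map e.symm).reindex σ, fun i => ?_⟩
  have hσ : σ.symm (ι i) = Sum.inl i := by
    rw [Equiv.symm_apply_eq]
    rfl
  have hb0 : b0 (Sum.inl i) = (Pi.single i 1, 0) := by
    apply Prod.ext
    · rw [Module.Basis.prod_apply_inl_fst, Pi.basisFun_apply]
    · rw [Module.Basis.prod_apply_inl_snd]
  rw [Module.Basis.reindex_apply, hσ, Module.Basis.map_apply, hb0]
  change (S.coprod K.subtype) (Pi.single i 1, 0) = v i
  rw [LinearMap.coprod_apply, map_zero, add_zero]
  simp only [S, Fintype.linearCombination_apply]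
  rw [Finset.sum_eq_single i]
  · simp
  · intro j _ hj
    simp [Pi.single_apply, hj]
  · intro h
    exact absurd (Finset.mem_univ _) h

/-- D2.1 (v) -/
theorem exists_SL {n p : ℕ} (hp : p < n) (ι : Fin p ↪ Fin n) (v : Fin p → (Fin n → R))
    (hv : Function.Injective v) (hPB : PB R (Finset.univ.image v)) :
    ∃ g : Matrix.SpecialLinearGroup (Fin n) R,
      ∀ i, (g : Matrix (Fin n) (Fin n) R) *ᵥ Pi.single (ι i) 1 = v i := by
  obtain ⟨b, hb⟩ := exists_basis ι v hv hPB
  set B : Matrix (Fin n) (Fin n) R := (Pi.basisFun R (Fin n)).toMatrix b with hB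
  have hBcol : ∀ i j, B i j = b j i := by
    intro i j
    rw [hB, Module.Basis.toMatrix_apply, Pi.basisFun_repr]
  have hdet : IsUnit B.det := by
    have := (Pi.basisFun R (Fin n)).isUnit_det b
    rwa [Module.Basis.det_apply] at this
  obtain ⟨l, hl⟩ : ∃ l : Fin n, l ∉ Set.range ι := by
    by_contra hcon
    have hsurj : Function.Surjective ι := by
      intro x
      by_contra hx
      exact hcon ⟨x, hx⟩
    have := Fintype.card_le_of_surjective _ hsurj
    rw [Fintype.card_fin, Fintype.card_fin] at this
    omega
  obtain ⟨u, hu⟩ := hdet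
  refine ⟨⟨B.updateCol l ((↑u⁻¹ : R) • fun i => B i l), ?_⟩, ?_⟩
  · rw [Matrix.det_updateCol_smul]
    have : B.updateCol l (fun i => B i l) = B := by
      ext i j
      rw [Matrix.updateCol_apply]
      by_cases h : j = l
      · rw [if_pos h, h]
      · rw [if_neg h]
    rw [this, ← hu, Units.inv_mul]
  · intro i
    rw [Matrix.mulVec_single_one]
    funext j
    change (B.updateCol l ((↑u⁻¹ : R) • fun i => B i l)) j (ι i) = v i j
    rw [Matrix.updateCol_apply, if_neg (fun h => hl ⟨i, h⟩), hBcol, hb]

end matrices

end Vale.P067.D2
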